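import Vale.Agent.P092.H45.Tb
import Vale.Agent.P092.H231.ZT2

/-!
P092, TEAM C (helper45): §8 of R/II, the trace bound of the family `Q` from the trace bound of the
positive element `a = Ê`, part 2 (all compact open sets), in the letters of helper231 (`Tor`, `Zt`).
-/

set_option linter.all false

open scoped InnerProductSpace ENNReal
open Filter Topology ContinuousLinearMap MeasureTheory TopologicalSpace

namespace Vale.Agent.P092.H45

open Vale.Agent.P092.RC Vale.Agent.P092.H820 Vale.Agent.P092.H231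
open Vale.Agent.P092.SR (CO)

section sum

variable {Γ Y G₀ K : Type} [Group Γ] [TopologicalSpace Y] [MulAction Γ Y]
  [ContinuousConstSMul Γ Y] [Group G₀] [TopologicalSpace G₀]
  [NormedAddCommGroup K] [InnerProductSpace ℂ K] [CompleteSpace K]
  {lam : Γ →* (K →L[ℂ] K)} {E : Clopens Y → (K →L[ℂ] K)} {S : Set (K →L[ℂ] K)}
  {c : Γ → Y → G₀} {Un : ℕ → Subgroup G₀} {n₀ : ℕ} {x : ℕ → G₀ → (K →L[ℂ] K)}

/-- The operator of a compact open set is a finite sum over the cosets of every deep level. -/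
theorem isZ_sum [IsTopologicalGroup G₀] [T2Space Y] [T2Space G₀]
    (h : H231.Tor lam E S c Un n₀ x) {C : Set (Y × G₀)} (hC : IsCompact C) (hCo : IsOpen C)
    {T : K →L[ℂ] K} (hT : IsZ E n₀ x C T) :
    ∃ n, n₀ ≤ n ∧ ∀ m, n ≤ m → ∃ F : Finset (G₀ ⧸ Un m),
      T = ∑ q ∈ F, E (slc C q.out) * x m q.out := by
  classical
  have hCc : IsClopen C := ⟨hC.isClosed, hCo⟩
  obtain ⟨n, hn, h1⟩ := hT
  obtain ⟨n', hn', hinv⟩ := exists_level h.lev n hC hCo
  refine ⟨n', hn.trans hn', fun m hm => ?_⟩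
  have ham : n₀ ≤ m := hn.trans (hn'.trans hm)
  have hinvm : Inv (Un m) C := hinv.mono (h.lev.anti hm)
  have hfin := finite_cosets (V := Un m) (h.lev.opn m) hC
  set F := hfin.toFinset with hF
  refine ⟨F, h.nd' ham fun g => ?_⟩
  rw [(h1 m (hn'.trans hm) g).1, Finset.sum_mul]
  have hout : (g : G₀ ⧸ Un m).out⁻¹ * g ∈ Un m :=
    QuotientGroup.eq.1 (QuotientGroup.out_eq' _)
  have hx1 : x m (g : G₀ ⧸ Un m).out = x m g := (h.x_eq ham hout).symm
  have hs1 : slc C (g : G₀ ⧸ Un m).out = slc C g := by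
    have h2 : g = (g : G₀ ⧸ Un m).out * ((g : G₀ ⧸ Un m).out⁻¹ * g) := by group
    conv_rhs => rw [h2]
    exact (hinvm.slc_eq hout).symm
  have hother : ∀ q ∈ F, q ≠ (g : G₀ ⧸ Un m) → q.out⁻¹ * g ∉ Un m := by
    intro q _ hq h3
    apply hq
    rw [← QuotientGroup.out_eq' q]
    exact QuotientGroup.eq.2 h3
  by_cases hg : (g : G₀ ⧸ Un m) ∈ F
  · rw [Finset.sum_eq_single_of_mem _ hg fun q hq hne => by
      rw [mul_assoc, h.orth m ham _ _ (hother q hq hne), mul_zero]]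
    rw [hx1, hs1, mul_assoc, h.idem m ham]
  · have hbot : slc C g = ⊥ := by
      ext y
      change y ∈ slc C g ↔ False
      rw [mem_slc hCc]
      refine ⟨fun hy => hg ?_, False.elim⟩
      rw [hF, Set.Finite.mem_toFinset]
      exact ⟨(y, g), hy, rfl⟩
    rw [hbot, h.cpv.bot, zero_mul]
    symm
    refine Finset.sum_eq_zero fun q hq => ?_
    rw [mul_assoc, h.orth m ham _ _ (hother q hq fun e => hg (e ▸ hq)), mul_zero]

end sum

section main

variable {G Γ Y G₀ K : Type} [Group G] [TopologicalSpace G] [Group Γ] [TopologicalSpace Y]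
  [MulAction G Y] [ContinuousConstSMul G Y] [MulAction Γ Y] [ContinuousConstSMul Γ Y] [Group G₀]
  [TopologicalSpace G₀] [NormedAddCommGroup K] [InnerProductSpace ℂ K] [CompleteSpace K]
  {π : G →* (K →L[ℂ] K)} {lam : Γ →* (K →L[ℂ] K)} {W W' S : Set (K →L[ℂ] K)} {Ω : K} {q : Γ →* G}
  {c : G → Y → G₀} {c' : Γ → Y → G₀} {y₀ : Y} {E : Clopens Y → (K →L[ℂ] K)} {U : Subgroup G₀}
  {a : G₀ → (K →L[ℂ] K)} {Un : ℕ → Subgroup G₀} {n₀ : ℕ} {x : ℕ → G₀ → (K →L[ℂ] K)}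

theorem slc_disj [T2Space Y] [T2Space G₀] {C C' : Set (Y × G₀)} (hC : CO C) (hC' : CO C')
    (hd : Disjoint (Prod.fst '' C) (Prod.fst '' C')) (g g' : G₀) :
    Disjoint (slc C g) (slc C' g') := by
  rw [disjoint_iff]
  ext y
  change (y ∈ slc C g ∧ y ∈ slc C' g') ↔ False
  rw [mem_slc ⟨hC.1.isClosed, hC.2⟩, mem_slc ⟨hC'.1.isClosed, hC'.2⟩]
  refine ⟨fun hy => ?_, False.elim⟩
  exact Set.disjoint_left.1 hd ⟨_, hy.1, rfl⟩ ⟨_, hy.2, rfl⟩

/-- **trace bound of the projections of compact open sets**, from boxes. -/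
theorem tb_of_box [IsTopologicalGroup G₀] [T2Space Y] [T2Space G₀]
    (h : H231.Tor lam E S c' Un n₀ x) {g : G} {M₀ : ℕ}
    (hbox : ∀ M, n₀ ≤ M → M₀ ≤ M → ∀ C C' : Clopens Y, Disjoint C C' → ∀ h h' : G₀,
      TRN lam Ω (π g * (x M h' * E C') * π g⁻¹ * (x M h * E C)) < ∞)
    {C C' : Set (Y × G₀)} (hC : CO C) (hC' : CO C')
    (hd : Disjoint (Prod.fst '' C) (Prod.fst '' C')) {T T' : K →L[ℂ] K}
    (hT : IsZ E n₀ x C T) (hT' : IsZ E n₀ x C' T') :
    TRN lam Ω (π g * T' * π g⁻¹ * T) < ∞ := by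
  obtain ⟨n, hn, h1⟩ := isZ_sum h hC.1 hC.2 hT
  obtain ⟨n', hn', h2⟩ := isZ_sum h hC'.1 hC'.2 hT'
  set M := max (max n n') M₀ with hM
  have hnM : n ≤ M := (le_max_left _ _).trans (le_max_left _ _)
  have hnM' : n' ≤ M := (le_max_right _ _).trans (le_max_left _ _)
  obtain ⟨F, hF⟩ := h1 M hnM
  obtain ⟨F', hF'⟩ := h2 M hnM'
  have haM : n₀ ≤ M := hn.trans hnM
  rw [hF, hF', Finset.mul_sum]
  refine trn_sum_lt _ _ fun i hi => ?_
  rw [Finset.mul_sum, Finset.sum_mul, Finset.sum_mul]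
  refine trn_sum_lt _ _ fun j hj => ?_
  rw [(h.sh M haM).commE, (h.sh M haM).commE]
  exact hbox M haM (le_max_right _ _) _ _ (slc_disj hC hC' hd _ _) _ _

/-- **(§8 of R/II)** the field `tb` of `ZFam` for the family `Zt` of a torsor `x` of projections
which are eigenprojections of the positive element `a` of `Hat`, at all deep levels. -/
theorem tb_zt [IsTopologicalGroup G₀] [T2Space Y] [T2Space G₀] (hP : Pic π lam W Ω)
    (hL : Lim π lam W q y₀ E) (hW : W ⊆ W') (hA : Hat π lam W' Ω q c y₀ E U a)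
    (h : H231.Tor lam E S c' Un n₀ x) (hx : ∀ m, n₀ ≤ m → ∀ g, Cm W (x m g))
    (heig : ∃ (t : G₀) (μ : ℂ) (M₀ : ℕ), μ ≠ 0 ∧ ∀ M, n₀ ≤ M → M₀ ≤ M → ∀ g,
      a (g * t) * x M g = μ • x M g)
    {g : G} (hg : g • y₀ ≠ y₀) {C C' : Set (Y × G₀)} (hC : CO C) (hC' : CO C')
    (hd : Disjoint (Prod.fst '' C) (Prod.fst '' C')) :
    TRN lam Ω (π g * Zt E n₀ x C' * π g⁻¹ * Zt E n₀ x C) < ∞ := by
  obtain ⟨t, μ, M₀, hμ, h1⟩ := heig
  refine tb_of_box h (M₀ := M₀) (fun M hM hM' D D' hDD h' h'' => ?_) hC hC' hd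
    (h.isZ_zt (h.exists_isZ hC.1 hC.2)) (h.isZ_zt (h.exists_isZ hC'.1 hC'.2))
  exact tb_eig hP hL hW hA (hx M hM) (fun k D => ((h.sh M hM).commE k D).symm)
    (h.sa M hM) hμ (h1 M hM hM') hg hDD h' h''

end main

end Vale.Agent.P092.H45
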