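import Vale.Agent.P092.RC.Defs

/-!
P092, TEAM C, block [C-HSX] (helper45), see (X) of board post #4272.
If the positive element `a = Ê` of the residue algebra at the point `y₀` and its translate at
`g • y₀ ≠ y₀` both commute with `π(S)`, `S` with the Moore property, then the point maps at `y₀` and
`g • y₀` coincide: the products `Ê_(g y₀)(C') Ê_(y₀)(C)` for disjoint base sets are Hilbert-Schmidt
fields fixed by `S`, so they vanish.
-/

set_option linter.all false

open scoped InnerProductSpace ENNReal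
open Filter Topology ContinuousLinearMap MeasureTheory TopologicalSpace

namespace Vale.Agent.P092.H45

open Vale.Agent.P092.RC Vale.Agent.P092.H820

section general

/-- Local to global for properties of clopen sets. -/
theorem loc_glob {Y : Type} [TopologicalSpace Y] [CompactSpace Y] {Pr : Clopens Y → Prop}
    (hbot : Pr ⊥) (hsup : ∀ C D, Pr C → Pr D → Pr (C ⊔ D))
    (hloc : ∀ y, ∃ C : Clopens Y, y ∈ C ∧ Pr C) : Pr ⊤ := by
  have key : ∃ C : Clopens Y, (Set.univ : Set Y) ⊆ (C : Set Y) ∧ Pr C := by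
    refine isCompact_univ.induction_on (p := fun S => ∃ C : Clopens Y, S ⊆ (C : Set Y) ∧ Pr C) ?_ ?_ ?_ ?_
    · exact ⟨⊥, Set.empty_subset _, hbot⟩
    · rintro S T hST ⟨C, hC, h⟩
      exact ⟨C, hST.trans hC, h⟩
    · rintro S T ⟨C, hC, h⟩ ⟨D, hD, h'⟩
      refine ⟨C ⊔ D, ?_, hsup C D h h'⟩
      rintro x (hx | hx)
      · exact Or.inl (hC hx)
      · exact Or.inr (hD hx)
    · intro y _
      obtain ⟨C, hy, h⟩ := hloc y
      exact ⟨C, mem_nhdsWithin_of_mem_nhds (C.isClopen.isOpen.mem_nhds hy), C, subset_rfl, h⟩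
  obtain ⟨C, hC, h⟩ := key
  have : C = ⊤ := by
    ext x
    exact ⟨fun _ => trivial, fun _ => hC (Set.mem_univ x)⟩
  rwa [this] at h

variable {K : Type} [NormedAddCommGroup K] [InnerProductSpace ℂ K] [CompleteSpace K]

/-- The projection onto a subspace which reduces `T` commutes with `T`. -/
theorem comm_proj (N : Submodule ℂ K) [N.HasOrthogonalProjection] (T : K →L[ℂ] K)
    (h1 : ∀ x ∈ N, T x ∈ N) (h2 : ∀ x ∈ N, adjoint T x ∈ N) :
    N.starProjection * T = T * N.starProjection := by
  ext x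
  have e1 : T (x - N.starProjection x) ∈ Nᗮ := by
    rw [Submodule.mem_orthogonal]
    intro u hu
    rw [← adjoint_inner_left]
    exact Submodule.inner_right_of_mem_orthogonal (h2 u hu)
      (N.sub_starProjection_mem_orthogonal x)
  have e2 : N.starProjection (T (x - N.starProjection x)) = 0 :=
    (N.starProjection_apply_eq_zero_iff).2 e1
  have e3 : N.starProjection (T (N.starProjection x)) = T (N.starProjection x) :=
    Submodule.starProjection_eq_self_iff.2 (h1 _ (N.starProjection_apply_mem x))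
  rw [map_sub, map_sub, sub_eq_zero] at e2
  change N.starProjection (T x) = T (N.starProjection x)
  rw [e2, e3]

end general

variable {G Γ Y G₀ K : Type} [Group G] [TopologicalSpace G] [Group Γ] [TopologicalSpace Y]
  [MulAction G Y] [ContinuousConstSMul G Y] [Group G₀] [TopologicalSpace G₀]
  [NormedAddCommGroup K] [InnerProductSpace ℂ K] [CompleteSpace K]
  {π : G →* (K →L[ℂ] K)} {lam : Γ →* (K →L[ℂ] K)} {W : Set (K →L[ℂ] K)} {Ω : K} {q : Γ →* G}
  {c : G → Y → G₀} {y₀ : Y} {E : Clopens Y → (K →L[ℂ] K)} {U : Subgroup G₀}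
  {a : G₀ → (K →L[ℂ] K)}

/-- The common kernel of the `a h` is invariant under `lam`. -/
theorem ker_lam (hG : Geo c y₀) (hE : Cpv E) (hU : IsOpen (U : Set G₀))
    (hR : Res π lam W q c y₀ E U a) {ξ : K} (hξ : ∀ h, a h ξ = 0) (γ : Γ) (h' : G₀) :
    a h' (lam γ ξ) = 0 := by
  haveI := hG.cpt
  haveI := hG.t2
  haveI := hG.td
  haveI := hG.tg₀
  have inv : ∀ x : K, lam γ⁻¹ (lam γ x) = x := by
    intro x
    rw [← ContinuousLinearMap.mul_apply, ← map_mul, inv_mul_cancel, map_one,
      ContinuousLinearMap.one_apply]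
  have cE : ∀ h C x, a h (E C x) = E C (a h x) := fun h C x => by
    have := congrArg (fun T : K →L[ℂ] K => T x) (hR.cE h C)
    exact this
  have key : a h' (E (sm (q γ) ⊤) (lam γ ξ)) = 0 := by
    refine loc_glob (Pr := fun C => a h' (E (sm (q γ) C) (lam γ ξ)) = 0) ?_ ?_ ?_
    · have : sm (q γ) (⊥ : Clopens Y) = ⊥ := rfl
      rw [this, hE.bot]
      simp
    · intro C D hC hD
      have : sm (q γ) (C ⊔ D) = sm (q γ) C ⊔ sm (q γ) D := rfl
      rw [this, hE.sup]
      simp only [ContinuousLinearMap.sub_apply, ContinuousLinearMap.add_apply,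
        ContinuousLinearMap.mul_apply, map_sub, map_add, hC, hD]
      rw [cE, hD]
      simp
    · intro y
      set h : G₀ := (c (q γ) y)⁻¹ * h' with hh
      have hcont : Continuous fun z : Y => (c (q γ) z * h)⁻¹ * h' := by
        have h1 : Continuous fun z : Y => c (q γ) z :=
          hG.cont.comp (Continuous.prodMk_right (q γ))
        exact ((h1.mul continuous_const).inv).mul continuous_const
      have hopen : IsOpen {z : Y | (c (q γ) z * h)⁻¹ * h' ∈ U} := hU.preimage hcont
      have hy : y ∈ {z : Y | (c (q γ) z * h)⁻¹ * h' ∈ U} := by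
        change (c (q γ) y * h)⁻¹ * h' ∈ U
        rw [hh]
        have : (c (q γ) y * ((c (q γ) y)⁻¹ * h'))⁻¹ * h' = 1 := by group
        rw [this]
        exact U.one_mem
      obtain ⟨C, hyC, hC⟩ := exists_clopen (hopen.mem_nhds hy)
      refine ⟨C, hyC, ?_⟩
      have e1 := congrArg (fun T : K →L[ℂ] K => T (lam γ ξ))
        (hR.eqv γ h h' C (fun z hz => hC hz))
      simp only [ContinuousLinearMap.mul_apply, inv] at e1
      rw [← e1, cE, hξ]
      simp
  have htop : sm (q γ) (⊤ : Clopens Y) = ⊤ := rfl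
  rw [htop, hE.top] at key
  simpa using key

section main

variable (hG : Geo c y₀) (hP : Pic π lam W Ω) (hL : Lim π lam W q y₀ E)
  (hA : Hat π lam W Ω q c y₀ E U a) {S : Set G} (hS : Moore S)
  (h1 : ∀ s ∈ S, ∀ h, π s * a h = a h * π s)
include hG hP hL hA hS h1

/-- The common kernel of the `a h` is zero. -/
theorem ker_zero {ξ : K} (hξ : ∀ h, a h ξ = 0) : ξ = 0 := by
  classical
  let N : Submodule ℂ K := ⨅ h, LinearMap.ker (a h : K →ₗ[ℂ] K)
  have hN : ∀ x, x ∈ N ↔ ∀ h, a h x = 0 := by
    intro x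
    simp only [N, Submodule.mem_iInf, LinearMap.mem_ker]
    rfl
  have hcl : IsClosed (N : Set K) := by
    have : (N : Set K) = ⋂ h, {x | a h x = 0} := by
      ext x
      simp only [SetLike.mem_coe, hN, Set.mem_iInter, Set.mem_setOf_eq]
    rw [this]
    exact isClosed_iInter fun h => isClosed_eq (a h).continuous continuous_const
  haveI : CompleteSpace N := hcl.completeSpace_coe
  set p := N.starProjection with hp
  have cW : Cm W p := by
    intro w hw
    refine comm_proj N w (fun x hx => ?_) (fun x hx => ?_)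
    · rw [hN] at hx ⊢
      intro h
      have := congrArg (fun T : K →L[ℂ] K => T x) (hA.res.cm h w hw)
      simp only [ContinuousLinearMap.mul_apply] at this
      rw [this, hx h, map_zero]
    · rw [hN] at hx ⊢
      intro h
      have := congrArg (fun T : K →L[ℂ] K => T x) (hA.res.cm h (adjoint w) (hP.Wadj w hw))
      simp only [ContinuousLinearMap.mul_apply] at this
      rw [this, hx h, map_zero]
  have cL : ∀ γ, p * lam γ = lam γ * p := by
    intro γ
    refine comm_proj N (lam γ) (fun x hx => ?_) (fun x hx => ?_)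
    · rw [hN] at hx ⊢
      exact fun h => ker_lam hG hL.cpv hA.cos.2 hA.res hx γ h
    · rw [hP.adjL]
      rw [hN] at hx ⊢
      exact fun h => ker_lam hG hL.cpv hA.cos.2 hA.res hx γ⁻¹ h
  have cS : ∀ s ∈ S, p * π s = π s * p := by
    intro s hs
    have h3 : ∀ h, π s⁻¹ * a h = a h * π s⁻¹ := by
      intro h
      have e1 : π s⁻¹ * π s = 1 := by rw [← map_mul, inv_mul_cancel, map_one]
      have e2 : π s * π s⁻¹ = 1 := by rw [← map_mul, mul_inv_cancel, map_one]
      calc π s⁻¹ * a h = π s⁻¹ * (a h * (π s * π s⁻¹)) := by rw [e2, mul_one]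
        _ = π s⁻¹ * ((π s * a h) * π s⁻¹) := by rw [h1 s hs h, mul_assoc (a h)]
        _ = (π s⁻¹ * π s) * (a h * π s⁻¹) := by noncomm_ring
        _ = a h * π s⁻¹ := by rw [e1, one_mul]
    refine comm_proj N (π s) (fun x hx => ?_) (fun x hx => ?_)
    · rw [hN] at hx ⊢
      intro h
      have := congrArg (fun T : K →L[ℂ] K => T x) (h1 s hs h)
      simp only [ContinuousLinearMap.mul_apply] at this
      rw [← this, hx h, map_zero]
    · rw [hP.adjP]
      rw [hN] at hx ⊢
      intro h
      have := congrArg (fun T : K →L[ℂ] K => T x) (h3 h)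
      simp only [ContinuousLinearMap.mul_apply] at this
      rw [← this, hx h, map_zero]
  obtain ⟨z, hz⟩ := hP.erg S hS p cW cL cS
  have hid : ∀ x, p (p x) = p x := fun x =>
    Submodule.starProjection_eq_self_iff.2 (N.starProjection_apply_mem x)
  have hΩ : Ω ≠ 0 := by
    intro h0
    have := hP.nΩ
    rw [h0, norm_zero] at this
    exact zero_ne_one this
  have hz2 : z * z = z := by
    have e := hid Ω
    rw [hz] at e
    simp only [ContinuousLinearMap.smul_apply, ContinuousLinearMap.one_apply, smul_smul] at e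
    by_contra hne
    have : (z * z - z) • Ω = 0 := by rw [sub_smul, e, sub_self]
    rcases smul_eq_zero.1 this with h | h
    · exact hne (sub_eq_zero.1 h)
    · exact hΩ h
  have hz01 : z = 0 ∨ z = 1 := by
    have : z * (z - 1) = 0 := by rw [mul_sub, hz2, mul_one, sub_self]
    rcases mul_eq_zero.1 this with h | h
    · exact Or.inl h
    · exact Or.inr (sub_eq_zero.1 h)
  rcases hz01 with h0 | h0
  · have hx : p ξ = ξ := Submodule.starProjection_eq_self_iff.2 ((hN ξ).2 hξ)
    rw [hz, h0] at hx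
    simpa using hx.symm
  · exfalso
    refine hA.ne ?_
    funext h
    ext x
    have hx : p x = x := by rw [hz, h0]; simp
    have : x ∈ N := Submodule.starProjection_eq_self_iff.1 hx
    exact (hN x).1 this h

variable {g : G} (hg : g • y₀ ≠ y₀) (hS0 : ∀ s ∈ S, s • y₀ = y₀)
  (hSg : ∀ s ∈ S, (g⁻¹ * s * g) • y₀ = y₀)
  (h2 : ∀ s ∈ S, ∀ h, π (g⁻¹ * s * g) * a h = a h * π (g⁻¹ * s * g))
include hg hS0 hSg h2

/-- The products over disjoint base sets vanish. -/
theorem prod_zero {C C' : Clopens Y} (hC : Disjoint C C') (h h' : G₀) :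
    π g * (a h' * E C') * π g⁻¹ * (a h * E C) = 0 := by
  have gg : π g⁻¹ * π g = 1 := by rw [← map_mul, inv_mul_cancel, map_one]
  have gg' : π g * π g⁻¹ = 1 := by rw [← map_mul, mul_inv_cancel, map_one]
  refine hP.hs_erg S hS _ ?_ (hA.tb g hg C C' hC h h') ?_
  · intro w hw
    have hw' : π g⁻¹ * w * π g ∈ W := by simpa using hP.WP w hw g⁻¹
    have c1 : ∀ k D, (a k * E D) * w = w * (a k * E D) := by
      intro k D
      rw [mul_assoc, hL.cm D w hw, ← mul_assoc, hA.res.cm k w hw, mul_assoc]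
    have c2 : (a h' * E C') * (π g⁻¹ * w * π g) = (π g⁻¹ * w * π g) * (a h' * E C') := by
      rw [mul_assoc, hL.cm C' _ hw', ← mul_assoc, hA.res.cm h' _ hw', mul_assoc]
    calc π g * (a h' * E C') * π g⁻¹ * (a h * E C) * w
        = π g * (a h' * E C') * π g⁻¹ * ((a h * E C) * w) := by rw [mul_assoc]
      _ = π g * (a h' * E C') * π g⁻¹ * (w * (a h * E C)) := by rw [c1]
      _ = π g * (a h' * E C') * (π g⁻¹ * w * 1) * (a h * E C) := by noncomm_ring
      _ = π g * ((a h' * E C') * (π g⁻¹ * w * π g)) * π g⁻¹ * (a h * E C) := by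
          rw [← gg']; noncomm_ring
      _ = π g * ((π g⁻¹ * w * π g) * (a h' * E C')) * π g⁻¹ * (a h * E C) := by rw [c2]
      _ = (π g * π g⁻¹) * w * (π g * (a h' * E C') * π g⁻¹ * (a h * E C)) := by noncomm_ring
      _ = w * (π g * (a h' * E C') * π g⁻¹ * (a h * E C)) := by rw [gg', one_mul]
  · intro s hs
    have c1 : (a h * E C) * π s = π s * (a h * E C) := by
      rw [mul_assoc, ← hL.par s (hS0 s hs) C, ← mul_assoc, ← h1 s hs h, mul_assoc]
    have c2 : (a h' * E C') * π (g⁻¹ * s * g) = π (g⁻¹ * s * g) * (a h' * E C') := by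
      rw [mul_assoc, ← hL.par _ (hSg s hs) C', ← mul_assoc, ← h2 s hs h', mul_assoc]
    have e1 : π g⁻¹ * π s = π (g⁻¹ * s * g) * π g⁻¹ := by
      rw [← map_mul, ← map_mul]; congr 1; group
    have e2 : π g * π (g⁻¹ * s * g) = π s * π g := by
      rw [← map_mul, ← map_mul]; congr 1; group
    calc π g * (a h' * E C') * π g⁻¹ * (a h * E C) * π s
        = π g * (a h' * E C') * π g⁻¹ * ((a h * E C) * π s) := by rw [mul_assoc]
      _ = π g * (a h' * E C') * (π g⁻¹ * π s) * (a h * E C) := by rw [c1]; noncomm_ring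
      _ = π g * ((a h' * E C') * π (g⁻¹ * s * g)) * π g⁻¹ * (a h * E C) := by
          rw [e1]; noncomm_ring
      _ = (π g * π (g⁻¹ * s * g)) * (a h' * E C') * π g⁻¹ * (a h * E C) := by
          rw [c2]; noncomm_ring
      _ = π s * (π g * (a h' * E C') * π g⁻¹ * (a h * E C)) := by rw [e2]; noncomm_ring

/-- The point maps at `y₀` and `g • y₀` are orthogonal over disjoint sets. -/
theorem E_disj {C C' : Clopens Y} (hC : Disjoint C C') :
    (π g * E C' * π g⁻¹) * E C = 0 := by
  have gg : ∀ x : K, π g⁻¹ (π g x) = x := by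
    intro x
    rw [← ContinuousLinearMap.mul_apply, ← map_mul, inv_mul_cancel, map_one,
      ContinuousLinearMap.one_apply]
  have gg' : ∀ x : K, π g (π g⁻¹ x) = x := by
    intro x
    rw [← ContinuousLinearMap.mul_apply, ← map_mul, mul_inv_cancel, map_one,
      ContinuousLinearMap.one_apply]
  have kz := fun {ξ : K} (hξ : ∀ h, a h ξ = 0) => ker_zero hG hP hL hA hS h1 hξ
  have pz := fun (h h' : G₀) =>
    prod_zero hG hP hL hA hS h1 hg hS0 hSg h2 hC h h'
  -- first step: remove `a h'`
  have s1 : ∀ h x, E C' (π g⁻¹ (a h (E C x))) = 0 := by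
    intro h x
    apply kz
    intro h'
    have e := congrArg (fun T : K →L[ℂ] K => π g⁻¹ (T x)) (pz h h')
    simp only [ContinuousLinearMap.mul_apply, ContinuousLinearMap.zero_apply, map_zero, gg] at e
    exact e
  -- second step: remove `a h`, by taking adjoints
  have s2 : ∀ h, (π g * E C' * π g⁻¹) * (a h * E C) = 0 := by
    intro h
    ext x
    simp only [ContinuousLinearMap.mul_apply, ContinuousLinearMap.zero_apply]
    rw [s1 h x, map_zero]
  have sa : ∀ h, adjoint (a h) = a h := fun h =>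
    (IsSelfAdjoint.of_nonneg (hA.pos h)).star_eq
  have sE : ∀ D, adjoint (E D) = E D := fun D => hL.cpv.sa D
  have hF : adjoint (π g * E C' * π g⁻¹) = π g * E C' * π g⁻¹ := by
    have : adjoint (π g * E C' * π g⁻¹) = adjoint (π g⁻¹) * (adjoint (E C') * adjoint (π g)) := by
      rw [← star_eq_adjoint, star_mul, star_mul]; rfl
    rw [this, hP.adjP, hP.adjP, sE, inv_inv, mul_assoc]
  have s3 : ∀ h, a h * (E C * (π g * E C' * π g⁻¹)) = 0 := by
    intro h
    have e := congrArg adjoint (s2 h)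
    have e' : adjoint ((π g * E C' * π g⁻¹) * (a h * E C)) =
        (adjoint (E C) * adjoint (a h)) * adjoint (π g * E C' * π g⁻¹) := by
      rw [← star_eq_adjoint, star_mul, star_mul]; rfl
    rw [e', hF, sa, sE, map_zero, ← hA.res.cE h C] at e
    rw [← mul_assoc]
    exact e
  have s4 : E C * (π g * E C' * π g⁻¹) = 0 := by
    ext x
    simp only [ContinuousLinearMap.zero_apply]
    apply kz
    intro h
    have e := congrArg (fun T : K →L[ℂ] K => T x) (s3 h)
    simpa using e
  have e := congrArg adjoint s4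
  have e' : adjoint (E C * (π g * E C' * π g⁻¹)) =
      adjoint (π g * E C' * π g⁻¹) * adjoint (E C) := by
    rw [← star_eq_adjoint, star_mul]; rfl
  rw [e', hF, sE, map_zero] at e
  exact e

/-- **[C-HSX]** The point maps at `y₀` and at `g • y₀` coincide. -/
theorem hsx (C : Clopens Y) : π g * E C * π g⁻¹ = E C := by
  have hE := hL.cpv
  have gg' : π g * π g⁻¹ = 1 := by rw [← map_mul, mul_inv_cancel, map_one]
  have d := fun {C C' : Clopens Y} (hC : Disjoint C C') =>
    E_disj hG hP hL hA hS h1 hg hS0 hSg h2 hC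
  have a1 : (π g * E Cᶜ * π g⁻¹) * E C = 0 := d disjoint_compl_right
  have a2 : (π g * E C * π g⁻¹) * E Cᶜ = 0 := d disjoint_compl_left
  rw [hE.compl] at a1 a2
  have b1 : E C = (π g * E C * π g⁻¹) * E C := by
    have : (π g * (1 - E C) * π g⁻¹) * E C = (π g * π g⁻¹) * E C - (π g * E C * π g⁻¹) * E C := by
      noncomm_ring
    rw [this, gg', one_mul, sub_eq_zero] at a1
    exact a1
  have b2 : π g * E C * π g⁻¹ = (π g * E C * π g⁻¹) * E C := by
    rw [mul_sub, mul_one, sub_eq_zero] at a2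
    exact a2
  rw [b2, ← b1]

end main

/-- Fewer operators `W`. -/
theorem hat_mono {W' : Set (K →L[ℂ] K)} (hW : W ⊆ W') (hA : Hat π lam W' Ω q c y₀ E U a) :
    Hat π lam W Ω q c y₀ E U a where
  cos := hA.cos
  res := { rinv := hA.res.rinv, bdd := hA.res.bdd, cm := fun h w hw => hA.res.cm h w (hW hw),
           rad := hA.res.rad, cE := hA.res.cE, eqv := hA.res.eqv }
  pos := hA.pos
  ne := hA.ne
  sum := hA.sum
  smooth := hA.smooth
  tb := hA.tb

/-- **[C-HSX]** in the situation of `ResStmt`. -/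
theorem hsx_ext {W' : Set (K →L[ℂ] K)} (hG : Geo c y₀) (hP : Pic π lam W Ω)
    (hL : Lim π lam W q y₀ E) (hX : Ext π lam W W' y₀ E) (hA : Hat π lam W' Ω q c y₀ E U a)
    {S : Set G} (hS : Moore S) (h1 : ∀ s ∈ S, ∀ h, π s * a h = a h * π s) {g : G}
    (hg : g • y₀ ≠ y₀) (hS0 : ∀ s ∈ S, s • y₀ = y₀) (hSg : ∀ s ∈ S, (g⁻¹ * s * g) • y₀ = y₀)
    (h2 : ∀ s ∈ S, ∀ h, π (g⁻¹ * s * g) * a h = a h * π (g⁻¹ * s * g)) (C : Clopens Y) :
    π g * E C * π g⁻¹ = E C :=
  hsx hG hP hL (hat_mono hX.sub hA) hS h1 hg hS0 hSg h2 C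

end Vale.Agent.P092.H45
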