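import Vale.Agent.P092.H45.Nrm2

/-!
P092 (helper45), Team C: compactness from bounded matrix coefficients; the group input `hN` of
[C7-R] for `PGL_n(k)`.
-/

set_option autoImplicit false
set_option linter.all false

open Topology Filter Matrix

namespace Vale.Agent.P092.H45

open Vale.Agent.P092.H175.T1 Vale.Agent.P092.H473.Res
open Vale.Agent.P092.H575 (Cl)

section pgl

variable {k : Type} [NontriviallyNormedField k] [IsUltrametricDist k] {n : Type} [Fintype n]
  [DecidableEq n]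

theorem isCompact_two [ProperSpace k] (R S : ℝ) :
    IsCompact {g : (Matrix n n k)ˣ | Cl g.1 R ∧ Cl (g⁻¹).1 S} := by
  have h1 : IsCompact ({A : Matrix n n k | Cl A R} ×ˢ
      (MulOpposite.op '' {A : Matrix n n k | Cl A S})) :=
    H575.isCompact_cl.prod (H575.isCompact_cl.image MulOpposite.continuous_op)
  have h2 := (Units.isClosedEmbedding_embedProduct (α := Matrix n n k)).isCompact_preimage h1
  refine h2.of_isClosed_subset ?_ ?_
  · exact (H575.isClosed_cl.preimage Units.continuous_val).inter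
      (H575.isClosed_cl.preimage (Units.continuous_val.comp continuous_inv))
  · rintro x ⟨hx, hx'⟩
    exact ⟨hx, ⟨_, hx', rfl⟩⟩

/-- An open subgroup of `PGL_n(k)` with bounded coefficients is compact. -/
theorem isCompact_of_bdV [ProperSpace k] [Nonempty n]
    {V : Subgroup ((Matrix n n k)ˣ ⧸ Subgroup.center (Matrix n n k)ˣ)}
    (hV : IsOpen (V : Set ((Matrix n n k)ˣ ⧸ Subgroup.center (Matrix n n k)ˣ)))
    (hb : ∀ A B, BdV V A B) :
    IsCompact (V : Set ((Matrix n n k)ˣ ⧸ Subgroup.center (Matrix n n k)ˣ)) := by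
  -- uniform bound
  have h1 : ∀ t : n × n × n × n, ∃ R : ℝ, ∀ g : (Matrix n n k)ˣ,
      (QuotientGroup.mk g : (Matrix n n k)ˣ ⧸ Subgroup.center (Matrix n n k)ˣ) ∈ V →
      ‖g.1 t.1 t.2.1 * (g⁻¹).1 t.2.2.1 t.2.2.2‖ ≤ R := by
    rintro ⟨a, b, c, d⟩
    obtain ⟨R, hR⟩ := hb (single d a 1) (single b c 1)
    refine ⟨R, fun g hg => ?_⟩
    have h2 := hR g hg
    rw [single_mul_mul_single, one_mul, mul_one] at h2
    have h3 : trace (single d c (g.1 a b) * (g⁻¹).1) = g.1 a b * (g⁻¹).1 c d := by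
      rw [trace, Finset.sum_eq_single d]
      · rw [diag_apply, single_mul_apply_same]
      · intro l _ hl
        rw [diag_apply, single_mul_apply_of_ne _ _ _ _ _ hl]
      · intro h
        exact (h (Finset.mem_univ d)).elim
    rw [h3] at h2
    exact h2
  choose R hR using h1
  obtain ⟨M, hM⟩ := Finite.exists_le R
  have hM' : ∀ g : (Matrix n n k)ˣ,
      (QuotientGroup.mk g : (Matrix n n k)ˣ ⧸ Subgroup.center (Matrix n n k)ˣ) ∈ V →
      ∀ a b c d : n, ‖g.1 a b‖ * ‖(g⁻¹).1 c d‖ ≤ M := by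
    intro g hg a b c d
    rw [← norm_mul]
    exact (hR (a, b, c, d) g hg).trans (hM _)
  obtain ⟨c, hc⟩ := NormedField.exists_one_lt_norm k
  have hcl : IsClosed (V : Set ((Matrix n n k)ˣ ⧸ Subgroup.center (Matrix n n k)ˣ)) :=
    Subgroup.isClosed_of_isOpen _ hV
  refine ((isCompact_two (n := n) (k := k) 1 (M * ‖c‖)).image
    (QuotientGroup.continuous_mk (N := Subgroup.center (Matrix n n k)ˣ))).of_isClosed_subset hcl ?_
  intro v hv
  obtain ⟨g, rfl⟩ := QuotientGroup.mk_surjective v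
  obtain ⟨⟨a, b⟩, hab⟩ := Finite.exists_max fun t : n × n => ‖g.1 t.1 t.2‖
  have hab0 : g.1 a b ≠ 0 := by
    intro h
    have h2 : g.1 = 0 := by
      ext i j
      have h3 := hab (i, j)
      change ‖g.1 i j‖ ≤ ‖g.1 a b‖ at h3
      rw [h, norm_zero] at h3
      exact norm_le_zero_iff.1 h3
    exact g.ne_zero h2
  obtain ⟨d, hd0, hd1, hd2, -⟩ := rescale_to_shell hc one_pos hab0
  rw [smul_eq_mul] at hd1 hd2
  refine ⟨zs (Units.mk0 d hd0) * g, ⟨?_, ?_⟩, ?_⟩
  · intro i j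
    rw [Units.val_mul, zs_val, Units.val_mk0, smul_mul_assoc, one_mul, Matrix.smul_apply,
      smul_eq_mul, norm_mul]
    rw [norm_mul] at hd1
    have h3 : ‖g.1 i j‖ ≤ ‖g.1 a b‖ := hab (i, j)
    exact (mul_le_mul_of_nonneg_left h3 (norm_nonneg d)).trans hd1.le
  · intro i j
    have h3 : ((zs (Units.mk0 d hd0) * g)⁻¹ : (Matrix n n k)ˣ).1 = d⁻¹ • (g⁻¹).1 := by
      rw [_root_.mul_inv_rev, Units.val_mul]
      have h4 : ((zs (Units.mk0 d hd0))⁻¹ : (Matrix n n k)ˣ) = zs (Units.mk0 d hd0)⁻¹ := by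
        rw [zs, zs, map_inv]
      rw [h4, zs_val, Matrix.mul_smul, Matrix.mul_one, Units.val_inv_eq_inv_val, Units.val_mk0]
    rw [h3, Matrix.smul_apply, smul_eq_mul, norm_mul, norm_inv]
    have h4 := hM' g hv a b i j
    have h5 : 0 < ‖d‖ := norm_pos_iff.2 hd0
    have h6 : 0 < ‖g.1 a b‖ := norm_pos_iff.2 hab0
    have h7 : 0 < ‖c‖ := one_pos.trans hc
    rw [norm_mul, div_le_iff₀ h7] at hd2
    have h8 : 0 ≤ ‖(g⁻¹).1 i j‖ := norm_nonneg _
    rw [inv_mul_le_iff₀ h5]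
    calc ‖(g⁻¹).1 i j‖ ≤ (‖d‖ * ‖g.1 a b‖ * ‖c‖) * ‖(g⁻¹).1 i j‖ :=
          le_mul_of_one_le_left h8 hd2
      _ = ‖d‖ * (‖g.1 a b‖ * ‖(g⁻¹).1 i j‖ * ‖c‖) := by ring
      _ ≤ ‖d‖ * (M * ‖c‖) := by gcongr
  · rw [QuotientGroup.mk_mul, zs_mk, one_mul]

theorem tv_pow (i j : n) (hij : i ≠ j) (t : k) (M : ℕ) : (tv i j hij t) ^ M = tv i j hij (M * t) := by
  induction M with
  | zero =>
    rw [pow_zero, Nat.cast_zero, zero_mul, tv_zero]
  | succ M ih =>
    rw [pow_succ, ih]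
    ext1
    rw [Units.val_mul]
    change transvection i j _ * transvection i j _ = transvection i j _
    rw [transvection_mul_transvection_same i j hij, Nat.cast_succ, add_mul, one_mul]

variable [ProperSpace k] [CharZero k]

/-- A compact open subgroup does not contain the image of an injective continuous endomorphism. -/
theorem not_cpt_range {p q : ℕ}
    {K : ℕ → Subgroup ((Matrix n n k)ˣ ⧸ Subgroup.center (Matrix n n k)ˣ)} {a : ℕ}
    (hKa : ∀ m, K m = (H575.Kc p k n (a + m)).map (QuotientGroup.mk' _)) (hK : GrpH p q K)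
    (ψ : ((Matrix n n k)ˣ ⧸ Subgroup.center (Matrix n n k)ˣ) →*
      ((Matrix n n k)ˣ ⧸ Subgroup.center (Matrix n n k)ˣ)) (hi : Function.Injective ψ)
    (ho : IsOpen (((K 0).map ψ :
      Subgroup ((Matrix n n k)ˣ ⧸ Subgroup.center (Matrix n n k)ˣ)) :
      Set ((Matrix n n k)ˣ ⧸ Subgroup.center (Matrix n n k)ˣ))) {i j : n} (hij : i ≠ j) :
    ¬ IsCompact ((ψ.range : Subgroup ((Matrix n n k)ˣ ⧸ Subgroup.center (Matrix n n k)ˣ)) :
      Set ((Matrix n n k)ˣ ⧸ Subgroup.center (Matrix n n k)ˣ)) := by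
  intro hV
  have hn : Nonempty n := ⟨i⟩
  have hidx : (K 0).index ≠ 0 := by
    have h1 := (H575.finiteIndex_of_cpt hV ho).index_ne_zero
    change ((K 0).map ψ).relIndex ψ.range ≠ 0 at h1
    rw [MonoidHom.range_eq_map, Subgroup.relIndex_map_map_of_injective _ _ hi,
      Subgroup.relIndex_top_right] at h1
    exact h1
  have h1 : ∀ s : k, (QuotientGroup.mk (tv i j hij s) :
      (Matrix n n k)ˣ ⧸ Subgroup.center (Matrix n n k)ˣ) ∈ K 0 := by
    intro s
    have h2 : ((K 0).index.factorial : k) ≠ 0 := by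
      exact_mod_cast Nat.factorial_ne_zero _
    have h3 := Subgroup.pow_mem_of_index_ne_zero_of_dvd hidx (QuotientGroup.mk (tv i j hij
      (s / (K 0).index.factorial)) : (Matrix n n k)ˣ ⧸ Subgroup.center (Matrix n n k)ˣ)
      (n := (K 0).index.factorial) fun m hm hm' => Nat.dvd_factorial hm hm'
    rw [← QuotientGroup.mk_pow, tv_pow, mul_div_cancel₀ _ h2] at h3
    exact h3
  obtain ⟨s, hs⟩ := NormedField.exists_one_lt_norm k
  have h2 := h1 s
  rw [hKa] at h2
  obtain ⟨u, hu, hu1⟩ := h2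
  have h3 : Cl (tv i j hij s).1 1 := by
    refine cl_of_mk (u := u) hu.1.1 hu.2.1 ?_ hu1
    change ‖(transvection i j s).det‖ = 1
    rw [det_transvection_of_ne i j hij, norm_one]
  have h4 := h3 i j
  rw [tv_val, Matrix.add_apply, one_apply_ne hij, zero_add, single_apply_same] at h4
  linarith

/-- **[hN] for `PGL_n(k)`**: a subgroup with power bounded elements, normalised by the image of an
injective continuous endomorphism, is trivial. -/
theorem eq_bot_of_norm
    (ψ : ((Matrix n n k)ˣ ⧸ Subgroup.center (Matrix n n k)ˣ) →*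
      ((Matrix n n k)ˣ ⧸ Subgroup.center (Matrix n n k)ˣ)) (hψ : Continuous ψ)
    (hi : Function.Injective ψ) {i j : n} (hij : i ≠ j)
    (N : Subgroup ((Matrix n n k)ˣ ⧸ Subgroup.center (Matrix n n k)ˣ))
    (hN : ∀ h, ∀ x ∈ N, ψ h * x * (ψ h)⁻¹ ∈ N)
    (hc : ∀ g ∈ N, ∃ C : Set ((Matrix n n k)ˣ ⧸ Subgroup.center (Matrix n n k)ˣ),
      IsCompact C ∧ ∀ j : ℕ, g ^ j ∈ C) : N = ⊥ := by
  by_contra hne
  have hn : Nonempty n := ⟨i⟩
  obtain ⟨p, q, K, hp, hp1, ⟨a, hKa⟩, hK⟩ := grpH_pgl k n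
  haveI : T2Space ((Matrix n n k)ˣ ⧸ Subgroup.center (Matrix n n k)ˣ) := by
    haveI : IsClosed ((Subgroup.center (Matrix n n k)ˣ : Subgroup _) : Set (Matrix n n k)ˣ) := by
      have h1 : ((Subgroup.center (Matrix n n k)ˣ : Subgroup _) : Set (Matrix n n k)ˣ) =
          ⋂ h : (Matrix n n k)ˣ, {g | h * g = g * h} := by
        ext g
        rw [SetLike.mem_coe, Subgroup.mem_center_iff, Set.mem_iInter]
        rfl
      rw [h1]
      exact isClosed_iInter fun h => isClosed_eq (continuous_const.mul continuous_id)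
        (continuous_id.mul continuous_const)
    infer_instance
  have ho := isOpen_map hK ψ hψ hi 0
  have hV : IsOpen ((ψ.range : Subgroup ((Matrix n n k)ˣ ⧸ Subgroup.center (Matrix n n k)ˣ)) :
      Set ((Matrix n n k)ˣ ⧸ Subgroup.center (Matrix n n k)ˣ)) :=
    Subgroup.isOpen_mono (Subgroup.map_le_range ψ _) ho
  refine not_cpt_range hKa hK ψ hi ho hij (isCompact_of_bdV hV fun A B => ?_)
  refine bdd_of_norm hV ?_ hc ?_ A B
  · rintro _ ⟨h, rfl⟩ x hx
    exact hN h x hx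
  · by_contra h
    push Not at h
    exact hne ((Subgroup.eq_bot_iff_forall _).2 h)

end pgl

end Vale.Agent.P092.H45
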