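import Vale.Agent.P092.H729.C7F
import Vale.Agent.P092.H473.RQ
import Vale.Agent.P092.H45.Nrm3

/-!
P092 (helper45), Team C, block [C7-R] for every `m ≥ 2`: the two legs commute at one source point.
-/

set_option autoImplicit false
set_option linter.all false

open Filter Topology TopologicalSpace Matrix

namespace Vale.Agent.P092.H45

open Vale.Agent.P092.RC
open Vale.Agent.P092.H473.RQ (St prj prj_apply prj_surj prj_cont prj_open)
open Vale.Agent.P092.H473.Res

/-- The homomorphism `δ` of the stabiliser induces an injective continuous endomorphism of `G₀`. -/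
theorem exists_psi {G Y G₀ : Type} [Group G] [TopologicalSpace G] [TopologicalSpace Y]
    [MulAction G Y] [Group G₀] [TopologicalSpace G₀] {c : G → Y → G₀} {y₀ : Y} (hG : Geo c y₀)
    [SigmaCompactSpace G] [BaireSpace G₀] {δ : G → G₀}
    (δmul : ∀ p p' : G, p • y₀ = y₀ → p' • y₀ = y₀ → δ (p * p') = δ p * δ p')
    (δker : ∀ p : G, p • y₀ = y₀ → (δ p = 1 ↔ c p y₀ = 1))
    (δcont : Continuous fun p : {p : G // p • y₀ = y₀} => δ p) :
    ∃ ψ : G₀ →* G₀, Continuous ψ ∧ Function.Injective ψ ∧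
      ∀ p, p • y₀ = y₀ → δ p = ψ (c p y₀) := by
  have hs := prj_surj hG
  let δs : (St y₀ : Subgroup G) →* G₀ := MonoidHom.mk' (fun p => δ p)
    fun p p' => δmul p p' p.2 p'.2
  have hk : (prj hG).ker ≤ δs.ker := by
    intro p hp
    exact (δker p p.2).2 hp
  let ψ : G₀ →* G₀ := (prj hG).liftOfSurjective hs ⟨δs, hk⟩
  have h1 : ∀ p : (St y₀ : Subgroup G), ψ (prj hG p) = δ p := fun p =>
    MonoidHom.liftOfRightInverse_comp_apply _ _ _ ⟨δs, hk⟩ p
  refine ⟨ψ, ?_, ?_, fun p hp => (h1 ⟨p, hp⟩).symm⟩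
  · have hq : IsQuotientMap (prj hG) := (prj_open hG).isQuotientMap (prj_cont hG) hs
    rw [hq.continuous_iff]
    have h2 : (ψ ∘ prj hG) = fun p : (St y₀ : Subgroup G) => δ p := funext h1
    rw [h2]
    exact δcont
  · rw [injective_iff_map_eq_one]
    intro h hh
    obtain ⟨p, rfl⟩ := hs h
    rw [h1] at hh
    exact (δker p p.2).1 hh

theorem sigma_GG (k : Type) [NontriviallyNormedField k] [ProperSpace k] (m : ℕ) :
    SigmaCompactSpace (GG k m) := by
  haveI : LocallyCompactSpace (Matrix (Fin (m + 1)) (Fin (m + 1)) k) :=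
    inferInstanceAs (LocallyCompactSpace (Fin (m + 1) → Fin (m + 1) → k))
  haveI : SecondCountableTopology (Matrix (Fin (m + 1)) (Fin (m + 1)) k) :=
    inferInstanceAs (SecondCountableTopology (Fin (m + 1) → Fin (m + 1) → k))
  have h1 := SpecialLinearGroup.isClosedEmbedding_val (n := Fin (m + 1)) (R := k)
  haveI : LocallyCompactSpace (GG k m) := h1.locallyCompactSpace
  haveI : SecondCountableTopology (GG k m) := h1.isEmbedding.secondCountableTopology
  infer_instance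

theorem baire_PG (k : Type) [NontriviallyNormedField k] [ProperSpace k] [IsUltrametricDist k]
    [CharZero k] (m : ℕ) : BaireSpace (PG k m) := by
  obtain ⟨p, q, K, hp, hp1, -, hK⟩ := grpH_pgl k (Fin m)
  haveI : LocallyCompactSpace (PG k m) :=
    (hK.cpt 0).locallyCompactSpace_of_mem_nhds_of_group ((hK.opn 0).mem_nhds (one_mem _))
  infer_instance

/-- **[hN]** -/
theorem hN_PG {k : Type} [NontriviallyNormedField k] [ProperSpace k] [IsUltrametricDist k]
    [CharZero k] {m : ℕ} (hm : 2 ≤ m) (geo : Geo (cc : GG k m → YY k m → PG k m) y0)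
    {δ : GG k m → PG k m}
    (δmul : ∀ p p' : GG k m, p • (y0 : YY k m) = y0 → p' • (y0 : YY k m) = y0 →
      δ (p * p') = δ p * δ p')
    (δker : ∀ p : GG k m, p • (y0 : YY k m) = y0 → (δ p = 1 ↔ cc p (y0 : YY k m) = 1))
    (δcont : Continuous fun p : {p : GG k m // p • (y0 : YY k m) = y0} => δ p)
    (N : Subgroup (PG k m))
    (hN : ∀ p, p • (y0 : YY k m) = y0 → ∀ n ∈ N, δ p * n * (δ p)⁻¹ ∈ N)
    (hb : ∀ g ∈ N, ∃ C : Set (PG k m), IsCompact C ∧ ∀ j : ℕ, g ^ j ∈ C) : N = ⊥ := by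
  haveI := sigma_GG k m
  haveI := baire_PG k m
  obtain ⟨ψ, hψ, hi, h1⟩ := exists_psi geo δmul δker δcont
  have h01 : (⟨0, by omega⟩ : Fin m) ≠ ⟨1, by omega⟩ := by
    intro h
    simpa using congrArg Fin.val h
  refine eq_bot_of_norm ψ hψ hi h01 N (fun h x hx => ?_) hb
  obtain ⟨p, hp, rfl⟩ := geo.lev h
  rw [← h1 p hp]
  exact hN p hp x hx

/-- **[C7-R]** for every `m ≥ 2`. -/
theorem crossStmt (hG : GeoStmt) {m : ℕ} (hm : 2 ≤ m) : CrossStmt m := by
  intro k _ _ _ _ Γ K _ _ _ _ π lam₁ lam₂ X Ω q₁ q₂ E₁ E₂ δ₁ δ₂ Q₁ Q₂ _ _ _ l₁ l₂ _ h₁ h₂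
  have geo := hG k m (by omega)
  exact H729.cross geo l₁.cpv l₂.cpv (H729.basis_SL k m) (H729.basis_PG k m) h₁ h₂
    (hN_PG hm geo h₂.δmul h₂.δker h₂.δcont)

end Vale.Agent.P092.H45
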