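import Vale.Agent.P092.H45.Opn

/-!
P092 (helper45), Team C: power bounded matrices have integral trace; a subgroup of `PGL_n(k)` with
power bounded elements which is normalised by a noncompact open subgroup is trivial.
-/

set_option autoImplicit false
set_option linter.all false

open Topology Filter Matrix

namespace Vale.Agent.P092.H45

open Vale.Agent.P092.H175.T1 Vale.Agent.P092.H473.Res
open Vale.Agent.P092.H575 (Cl)

section tr

open Polynomial

variable {k : Type} [NormedField k] [IsUltrametricDist k] {n : Type} [Fintype n] [DecidableEq n]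

/-- polynomials with integral coefficients -/
def IntP (k : Type) [NormedField k] [IsUltrametricDist k] : Subring k[X] where
  carrier := {f | ∀ i, ‖f.coeff i‖ ≤ 1}
  mul_mem' := by
    intro f g hf hg i
    rw [coeff_mul]
    refine IsUltrametricDist.norm_sum_le_of_forall_le_of_nonneg zero_le_one fun x _ => ?_
    rw [norm_mul]
    exact mul_le_one₀ (hf _) (norm_nonneg _) (hg _)
  one_mem' := by
    intro i
    rw [coeff_one]
    split_ifs
    · rw [norm_one]
    · rw [norm_zero]; exact zero_le_one
  add_mem' := by
    intro f g hf hg i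
    rw [coeff_add]
    exact (IsUltrametricDist.norm_add_le_max _ _).trans (max_le (hf i) (hg i))
  zero_mem' := by
    intro i
    rw [coeff_zero, norm_zero]
    exact zero_le_one
  neg_mem' := by
    intro f hf i
    rw [coeff_neg, norm_neg]
    exact hf i

theorem mem_IntP {f : k[X]} : f ∈ IntP k ↔ ∀ i, ‖f.coeff i‖ ≤ 1 := Iff.rfl

theorem det_mem {R : Type} [CommRing R] (S : Subring R) (M : Matrix n n R) (h : ∀ i j, M i j ∈ S) :
    M.det ∈ S := by
  rw [det_apply]
  refine S.sum_mem fun σ _ => ?_
  rw [Units.smul_def]
  exact S.zsmul_mem (S.prod_mem fun i _ => h _ _) _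

/-- if all the coefficients of a product of monic polynomials are integral, so are those of the
factors -/
theorem int_of_mul {f g : k[X]} (hf : f.Monic) (hg : g.Monic) (h : f * g ∈ IntP k) :
    f ∈ IntP k := by
  have hv : IsNonarchimedean (IsAbsoluteValue.toAbsoluteValue (norm : k → ℝ)) :=
    fun x y => IsUltrametricDist.norm_add_le_max x y
  set v := IsAbsoluteValue.toAbsoluteValue (norm : k → ℝ) with hvd
  have h1 := gaussNorm_mul hv (c := 1) one_pos f g
  have h2 : (f * g).gaussNorm v 1 ≤ 1 := by
    obtain ⟨i, hi⟩ := (f * g).exists_eq_gaussNorm v 1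
    rw [hi, one_pow, mul_one]
    exact h i
  have h3 : 1 ≤ g.gaussNorm v 1 := by
    have h4 := g.le_gaussNorm v (c := 1) zero_le_one g.natDegree
    rw [one_pow, mul_one, coeff_natDegree, hg.leadingCoeff, map_one] at h4
    exact h4
  intro i
  have h5 := f.le_gaussNorm v (c := 1) zero_le_one i
  rw [one_pow, mul_one] at h5
  have h6 : 0 ≤ f.gaussNorm v 1 := f.gaussNorm_nonneg v zero_le_one
  have h7 : ‖f.coeff i‖ ≤ f.gaussNorm v 1 := h5
  nlinarith

theorem charpoly_int {g : Matrix n n k} (h : Cl g 1) : g.charpoly ∈ IntP k := by
  refine det_mem _ _ fun i j => ?_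
  rw [charmatrix_apply]
  refine sub_mem ?_ ?_
  · rw [diagonal_apply]
    split_ifs
    · intro l
      rw [coeff_X]
      split_ifs
      · rw [norm_one]
      · rw [norm_zero]; exact zero_le_one
    · exact zero_mem _
  · intro l
    rw [coeff_C]
    split_ifs
    · exact h i j
    · rw [norm_zero]; exact zero_le_one

/-- **Power bounded matrices have integral characteristic polynomial.** -/
theorem charpoly_int_of_pow {g : Matrix n n k} {N : ℕ} (hN : 0 < N) (h : Cl (g ^ N) 1) :
    g.charpoly ∈ IntP k := by
  have h1 : (charmatrix (g ^ N)).map (expand k N) =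
      charmatrix g * ∑ i ∈ Finset.range N, (scalar n (X : k[X])) ^ i *
        ((C : k →+* k[X]).mapMatrix g) ^ (N - 1 - i) := by
    have hc : Commute (scalar n (X : k[X])) ((C : k →+* k[X]).mapMatrix g) :=
      scalar_commute _ (fun r => Commute.all _ _) _
    change _ = (scalar n (X : k[X]) - (C : k →+* k[X]).mapMatrix g) * _
    rw [hc.mul_geom_sum₂, ← map_pow, ← map_pow]
    ext i j : 2
    rw [map_apply, charmatrix_apply]
    by_cases hij : i = j
    · subst hij
      simp [scalar_apply]
    · simp [scalar_apply, hij]
  have h2 := congrArg det h1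
  rw [det_mul] at h2
  have h3 : ((charmatrix (g ^ N)).map (expand k N)).det = expand k N (g ^ N).charpoly := by
    rw [charpoly, AlgHom.map_det]
    rfl
  rw [h3] at h2
  have h4 : (expand k N (g ^ N).charpoly).Monic := (charpoly_monic _).expand hN
  have h5 : expand k N (g ^ N).charpoly ∈ IntP k := by
    intro i
    rw [coeff_expand hN]
    split_ifs
    · exact charpoly_int h _
    · rw [norm_zero]; exact zero_le_one
  rw [h2] at h4 h5
  exact int_of_mul (charpoly_monic g) (Monic.of_mul_monic_left (charpoly_monic g) h4) h5

theorem trace_le {g : Matrix n n k} {N : ℕ} (hN : 0 < N) (h : Cl (g ^ N) 1) : ‖g.trace‖ ≤ 1 := by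
  rcases isEmpty_or_nonempty n with hn | hn
  · rw [trace, Finset.univ_eq_empty, Finset.sum_empty, norm_zero]
    exact zero_le_one
  · rw [trace_eq_neg_charpoly_coeff, norm_neg]
    exact charpoly_int_of_pow hN h _

end tr

/-! ### Subspaces of matrices which are invariant under small transvections -/

section span

variable {k : Type} [NormedField k] [CharZero k] {n : Type} [Fintype n] [DecidableEq n]

theorem conj_expand (E A : Matrix n n k) (r : k) :
    (1 + r • E) * A * (1 + (-r) • E) = A + r • (E * A - A * E) - (r * r) • (E * A * E) := by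
  simp only [add_mul, mul_add, one_mul, mul_one, smul_mul_assoc, mul_smul_comm, smul_add,
    smul_sub, smul_smul, neg_smul, smul_neg, mul_neg]
  abel

/-- A subspace invariant under conjugation by `1 ± s E_ij` which contains `1` and a nonscalar
matrix is everything. -/
theorem eq_top_of_conj (S : Submodule k (Matrix n n k)) {s : k} (hs : s ≠ 0)
    (hc : ∀ i j : n, i ≠ j → ∀ A ∈ S, ∀ r : k, (r = s ∨ r = -s) →
      (1 + r • single i j 1) * A * (1 + (-r) • single i j 1) ∈ S)
    (h1 : (1 : Matrix n n k) ∈ S) {x : Matrix n n k} (hx : x ∈ S)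
    (hx1 : x ∉ Set.range (scalar n : k → Matrix n n k)) : S = ⊤ := by
  -- brackets
  have hb : ∀ i j : n, i ≠ j → ∀ A ∈ S, single i j 1 * A - A * single i j 1 ∈ S ∧
      single i j 1 * A * single i j 1 ∈ S := by
    intro i j hij A hA
    have e1 := S.sub_mem (hc i j hij A hA s (Or.inl rfl)) hA
    have e2 := S.sub_mem (hc i j hij A hA (-s) (Or.inr rfl)) hA
    rw [conj_expand, add_sub_assoc, add_sub_cancel_left] at e1 e2
    rw [neg_mul_neg] at e2
    have e3 := S.sub_mem e1 e2
    have e4 := S.add_mem e1 e2
    have e5 : s • (single i j 1 * A - A * single i j 1) -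
        (s * s) • (single i j 1 * A * single i j 1) -
        (-s • (single i j 1 * A - A * single i j 1) -
        (s * s) • (single i j 1 * A * single i j 1)) =
        (2 * s) • (single i j 1 * A - A * single i j 1) := by
      rw [neg_smul, two_mul, add_smul]
      abel
    have e6 : s • (single i j 1 * A - A * single i j 1) -
        (s * s) • (single i j 1 * A * single i j 1) +
        (-s • (single i j 1 * A - A * single i j 1) -
        (s * s) • (single i j 1 * A * single i j 1)) =
        (-(2 * (s * s))) • (single i j 1 * A * single i j 1) := by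
      rw [neg_smul, neg_smul, two_mul, add_smul]
      abel
    rw [e5] at e3
    rw [e6] at e4
    exact ⟨(S.smul_mem_iff (mul_ne_zero two_ne_zero hs)).1 e3,
      (S.smul_mem_iff (neg_ne_zero.2 (mul_ne_zero two_ne_zero (mul_ne_zero hs hs)))).1 e4⟩
  -- one off diagonal unit
  obtain ⟨i, j, hij, hE⟩ : ∃ i j : n, i ≠ j ∧ single i j (1 : k) ∈ S := by
    by_cases hoff : ∃ i j : n, i ≠ j ∧ x j i ≠ 0
    · obtain ⟨i, j, hij, h0⟩ := hoff
      refine ⟨i, j, hij, ?_⟩
      have h2 := (hb i j hij x hx).2
      have h3 : single i j (1 : k) * x * single i j (1 : k) = x j i • single i j (1 : k) := by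
        rw [single_mul_mul_single, one_mul, mul_one, smul_single, smul_eq_mul, mul_one]
      rw [h3] at h2
      exact (S.smul_mem_iff h0).1 h2
    · push Not at hoff
      have hX : x = diagonal fun i => x i i := by
        ext a b
        by_cases hab : a = b
        · subst hab
          rw [diagonal_apply_eq]
        · rw [diagonal_apply_ne _ hab]
          exact hoff b a (Ne.symm hab)
      by_cases hd : ∃ i j : n, i ≠ j ∧ x j j - x i i ≠ 0
      · obtain ⟨i, j, hij, h0⟩ := hd
        refine ⟨i, j, hij, ?_⟩
        have h2 := (hb i j hij x hx).1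
        have h3 : single i j (1 : k) * x - x * single i j (1 : k) =
            (x j j - x i i) • single i j (1 : k) := by
          rw [hX]
          ext a b
          rw [Matrix.sub_apply, mul_diagonal, diagonal_mul, Matrix.smul_apply, single_apply,
            diagonal_apply_eq, diagonal_apply_eq, smul_eq_mul]
          split_ifs with h
          · rw [← h.1, ← h.2]; ring
          · ring
        rw [h3] at h2
        exact (S.smul_mem_iff h0).1 h2
      · push Not at hd
        exfalso
        apply hx1
        rcases isEmpty_or_nonempty n with hn | ⟨⟨i⟩⟩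
        · exact ⟨0, Subsingleton.elim _ _⟩
        · refine ⟨x i i, ?_⟩
          rw [hX, scalar_apply]
          congr 1
          funext l
          by_cases hil : i = l
          · subst hil
            rw [diagonal_apply_eq]
          · have h4 := hd i l hil
            rw [diagonal_apply_eq]
            exact (sub_eq_zero.1 h4).symm
  -- all of them
  have op1 : ∀ a b c : n, b ≠ a → a ≠ c → b ≠ c → single a b (1 : k) ∈ S →
      single a c (1 : k) ∈ S := by
    intro a b c hba hac hbc h
    have h2 := (hb b c hbc _ h).1
    rw [single_mul_single_of_ne _ _ _ _ hac.symm, single_mul_single_same, zero_sub, one_mul] at h2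
    exact S.neg_mem_iff.1 h2
  have op2 : ∀ a b c : n, b ≠ a → c ≠ b → c ≠ a → single a b (1 : k) ∈ S →
      single c b (1 : k) ∈ S := by
    intro a b c hba hcb hca h
    have h2 := (hb c a hca _ h).1
    rw [single_mul_single_same, single_mul_single_of_ne _ _ _ _ hcb.symm, sub_zero,
      one_mul] at h2
    exact h2
  have op3 : ∀ a b : n, a ≠ b → single a b (1 : k) ∈ S → single b a (1 : k) ∈ S := by
    intro a b hab h
    have h2 := (hb b a hab.symm _ h).2
    rw [single_mul_single_same, single_mul_single_same, one_mul, one_mul] at h2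
    exact h2
  have hrow : ∀ b : n, i ≠ b → single i b (1 : k) ∈ S := by
    intro b hib
    by_cases hjb : j = b
    · rw [← hjb]; exact hE
    · exact op1 i j b hij.symm hib hjb hE
  have hoff : ∀ a b : n, a ≠ b → single a b (1 : k) ∈ S := by
    intro a b hab
    by_cases hib : i = b
    · rw [← hib]
      exact op3 i a (by rw [hib]; exact hab.symm) (hrow a (by rw [hib]; exact hab.symm))
    · by_cases hai : a = i
      · rw [hai]; exact hrow b hib
      · exact op2 i b a (Ne.symm hib) hab hai (hrow b hib)
  have hdd : ∀ a b : n, a ≠ b → single b b (1 : k) - single a a (1 : k) ∈ S := by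
    intro a b hab
    have h2 := (hb b a hab.symm _ (hoff a b hab)).1
    rwa [single_mul_single_same, single_mul_single_same, one_mul] at h2
  have hdiag : ∀ a : n, single a a (1 : k) ∈ S := by
    intro a
    have hn : Nonempty n := ⟨a⟩
    have hcard : (Fintype.card n : k) ≠ 0 := by exact_mod_cast Fintype.card_ne_zero
    have h2 : (Fintype.card n : k) • single a a (1 : k) =
        1 - ∑ b : n, (single b b (1 : k) - single a a (1 : k)) := by
      rw [Finset.sum_sub_distrib, Finset.sum_const, Finset.card_univ, sum_single_one, sub_sub_cancel,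
        Nat.cast_smul_eq_nsmul]
    have h3 : (Fintype.card n : k) • single a a (1 : k) ∈ S := by
      rw [h2]
      refine S.sub_mem h1 (S.sum_mem fun b _ => ?_)
      by_cases hab : a = b
      · subst hab
        rw [sub_self]
        exact S.zero_mem
      · exact hdd a b hab
    exact (S.smul_mem_iff hcard).1 h3
  rw [Submodule.eq_top_iff']
  intro A
  rw [matrix_eq_sum_single A]
  refine S.sum_mem fun a _ => S.sum_mem fun b _ => ?_
  have h2 : single a b (A a b) = A a b • single a b (1 : k) := by
    rw [smul_single, smul_eq_mul, mul_one]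
  rw [h2]
  refine S.smul_mem _ ?_
  by_cases hab : a = b
  · rw [← hab]; exact hdiag a
  · exact hoff a b hab

end span

end Vale.Agent.P092.H45
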