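import Vale.Agent.P092.H45.Nrm

/-!
P092 (helper45), Team C: a subgroup of `PGL_n(k)` with power bounded elements which is normalised
by the image of an injective continuous endomorphism is trivial.
-/

set_option autoImplicit false
set_option linter.all false

open Topology Filter Matrix

namespace Vale.Agent.P092.H45

open Vale.Agent.P092.H175.T1 Vale.Agent.P092.H473.Res
open Vale.Agent.P092.H575 (Cl)

theorem exists_pow_mem {G : Type} [Group G] [TopologicalSpace G] [IsTopologicalGroup G]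
    {U : Subgroup G} (hU : IsOpen (U : Set G)) {C : Set G} (hC : IsCompact C) {g : G}
    (h : ∀ j : ℕ, g ^ j ∈ C) : ∃ N : ℕ, 0 < N ∧ g ^ N ∈ U := by
  obtain ⟨t, -, ht⟩ := hC.elim_nhds_subcover (fun x => {y | x⁻¹ * y ∈ U}) fun x _ =>
    (hU.preimage (continuous_const.mul continuous_id)).mem_nhds (by
      change x⁻¹ * x ∈ U
      rw [inv_mul_cancel]
      exact U.one_mem)
  have h1 : ∀ j : ℕ, ∃ x : t, (x : G)⁻¹ * g ^ j ∈ U := by
    intro j
    obtain ⟨x, hx, hxj⟩ := Set.mem_iUnion₂.1 (ht (h j))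
    exact ⟨⟨x, hx⟩, hxj⟩
  choose f hf using h1
  obtain ⟨i, j, hij, he⟩ := Finite.exists_ne_map_eq_of_infinite f
  have key : ∀ i j : ℕ, i < j → f i = f j → ∃ N : ℕ, 0 < N ∧ g ^ N ∈ U := by
    intro i j hij he
    refine ⟨j - i, Nat.sub_pos_of_lt hij, ?_⟩
    have h2 := U.mul_mem (U.inv_mem (hf i)) (hf j)
    rw [he] at h2
    have h3 : (((f j : G))⁻¹ * g ^ i)⁻¹ * ((f j : G)⁻¹ * g ^ j) = (g ^ i)⁻¹ * g ^ j := by group
    rw [h3, ← Nat.add_sub_cancel' hij.le, pow_add, inv_mul_cancel_left] at h2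
    exact h2
  rcases lt_or_gt_of_ne hij with h4 | h4
  · exact key i j h4 he
  · exact key j i h4 he.symm

section pgl

variable {k : Type} [NontriviallyNormedField k] [IsUltrametricDist k] {n : Type} [Fintype n]
  [DecidableEq n]

theorem norm_det_le {A : Matrix n n k} (h : Cl A 1) : ‖A.det‖ ≤ 1 := by
  have h1 : ((Polynomial.C : k →+* Polynomial k).mapMatrix A).det ∈ IntP k := by
    refine det_mem _ _ fun i j => ?_
    intro l
    rw [RingHom.mapMatrix_apply, map_apply, Polynomial.coeff_C]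
    split_ifs
    · exact h i j
    · rw [norm_zero]; exact zero_le_one
  rw [← RingHom.map_det] at h1
  have h2 := h1 0
  rwa [Polynomial.coeff_C_zero] at h2

/-- scalar units -/
def zs (d : kˣ) : (Matrix n n k)ˣ := Units.map (scalar n : k →+* Matrix n n k).toMonoidHom d

theorem zs_val (d : kˣ) : (zs d : (Matrix n n k)ˣ).1 = (d : k) • (1 : Matrix n n k) := by
  change scalar n (d : k) = _
  rw [scalar_apply, ← smul_one_eq_diagonal]

theorem zs_mk (d : kˣ) : (QuotientGroup.mk (zs d) :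
    (Matrix n n k)ˣ ⧸ Subgroup.center (Matrix n n k)ˣ) = 1 := by
  rw [QuotientGroup.eq_one_iff, Matrix.GeneralLinearGroup.mem_center_iff_val_mem_range_scalar]
  exact ⟨d, rfl⟩

/-- two lifts differ by a scalar -/
theorem lift_eq {u v : (Matrix n n k)ˣ} (h : (QuotientGroup.mk u :
    (Matrix n n k)ˣ ⧸ Subgroup.center (Matrix n n k)ˣ) = QuotientGroup.mk v) :
    ∃ l : k, v.1 = l • u.1 := by
  rw [QuotientGroup.eq] at h
  obtain ⟨l, hl⟩ := Matrix.GeneralLinearGroup.mem_center_iff_val_mem_range_scalar.1 h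
  refine ⟨l, ?_⟩
  have h2 : v.1 = u.1 * (u⁻¹ * v).1 := by
    rw [← Units.val_mul, mul_inv_cancel_left]
  rw [h2, ← hl, scalar_apply, ← smul_one_eq_diagonal, Matrix.mul_smul, Matrix.mul_one]

/-- a lift with unit determinant of an element of the image of `GL_n(O)` is integral -/
theorem cl_of_mk [Nonempty n] {u v : (Matrix n n k)ˣ} (hu : Cl u.1 1) (hu' : Cl (u⁻¹).1 1)
    (hv : ‖v.1.det‖ = 1) (h : (QuotientGroup.mk u :
    (Matrix n n k)ˣ ⧸ Subgroup.center (Matrix n n k)ˣ) = QuotientGroup.mk v) : Cl v.1 1 := by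
  obtain ⟨l, hl⟩ := lift_eq h
  have h1 : ‖u.1.det‖ * ‖(u⁻¹).1.det‖ = 1 := by
    rw [← norm_mul, ← det_mul, ← Units.val_mul, mul_inv_cancel, Units.val_one, det_one, norm_one]
  have h2 : ‖u.1.det‖ = 1 := by
    refine le_antisymm (norm_det_le hu) ?_
    have h3 := norm_det_le hu'
    nlinarith [norm_nonneg u.1.det, norm_nonneg (u⁻¹).1.det]
  have h3 : ‖l‖ = 1 := by
    rw [hl, det_smul, norm_mul, h2, mul_one, norm_pow] at hv
    exact (pow_eq_one_iff_of_nonneg (norm_nonneg _) Fintype.card_ne_zero).1 hv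
  intro i j
  rw [hl, Matrix.smul_apply, smul_eq_mul, norm_mul, h3, one_mul]
  exact hu i j

theorem pow_cl [Nonempty n] {g : (Matrix n n k)ˣ} (hd : ‖g.1.det‖ = 1)
    {C : Set ((Matrix n n k)ˣ ⧸ Subgroup.center (Matrix n n k)ˣ)} (hC : IsCompact C)
    (h : ∀ j : ℕ, (QuotientGroup.mk g : (Matrix n n k)ˣ ⧸ Subgroup.center (Matrix n n k)ˣ) ^ j ∈ C) :
    ∃ N : ℕ, 0 < N ∧ Cl (g.1 ^ N) 1 := by
  have hr : (0 : ℝ) < 1 / 2 := by norm_num
  have hU : IsOpen (((H575.cg k n (1 / 2) hr.le).map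
      (QuotientGroup.mk' (Subgroup.center (Matrix n n k)ˣ)) :
      Subgroup ((Matrix n n k)ˣ ⧸ Subgroup.center (Matrix n n k)ˣ)) :
      Set ((Matrix n n k)ˣ ⧸ Subgroup.center (Matrix n n k)ˣ)) := by
    rw [Subgroup.coe_map]
    exact QuotientGroup.isOpenMap_coe _ (H575.cg_isOpen hr)
  obtain ⟨N, hN, u, hu, h1⟩ := exists_pow_mem hU hC h
  refine ⟨N, hN, ?_⟩
  rw [← Units.val_pow_eq_pow_val]
  refine cl_of_mk (u := u) (v := g ^ N) hu.1.1 hu.2.1 ?_ h1
  rw [Units.val_pow_eq_pow_val, det_pow, norm_pow, hd, one_pow]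

/-- the bilinear form `tr (A g B g⁻¹)` is bounded on `V` -/
def BdV (V : Subgroup ((Matrix n n k)ˣ ⧸ Subgroup.center (Matrix n n k)ˣ))
    (A B : Matrix n n k) : Prop :=
  ∃ R : ℝ, ∀ g : (Matrix n n k)ˣ,
    (QuotientGroup.mk g : (Matrix n n k)ˣ ⧸ Subgroup.center (Matrix n n k)ˣ) ∈ V →
    ‖trace (A * g.1 * B * (g⁻¹).1)‖ ≤ R

/-- first variable -/
def SubL (V : Subgroup ((Matrix n n k)ˣ ⧸ Subgroup.center (Matrix n n k)ˣ)) (B : Matrix n n k) :
    Submodule k (Matrix n n k) where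
  carrier := {A | BdV V A B}
  add_mem' := by
    rintro A A' ⟨R, hR⟩ ⟨R', hR'⟩
    refine ⟨R + R', fun g hg => ?_⟩
    rw [add_mul, add_mul, add_mul, trace_add]
    exact (norm_add_le _ _).trans (add_le_add (hR g hg) (hR' g hg))
  zero_mem' := ⟨0, fun g hg => by rw [zero_mul, zero_mul, zero_mul, trace_zero, norm_zero]⟩
  smul_mem' := by
    rintro c A ⟨R, hR⟩
    refine ⟨‖c‖ * R, fun g hg => ?_⟩
    rw [smul_mul_assoc, smul_mul_assoc, smul_mul_assoc, trace_smul, norm_smul]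
    exact mul_le_mul_of_nonneg_left (hR g hg) (norm_nonneg _)

/-- second variable -/
def SubR (V : Subgroup ((Matrix n n k)ˣ ⧸ Subgroup.center (Matrix n n k)ˣ)) (A : Matrix n n k) :
    Submodule k (Matrix n n k) where
  carrier := {B | BdV V A B}
  add_mem' := by
    rintro B B' ⟨R, hR⟩ ⟨R', hR'⟩
    refine ⟨R + R', fun g hg => ?_⟩
    rw [mul_add, add_mul, trace_add]
    exact (norm_add_le _ _).trans (add_le_add (hR g hg) (hR' g hg))
  zero_mem' := ⟨0, fun g hg => by rw [mul_zero, zero_mul, trace_zero, norm_zero]⟩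
  smul_mem' := by
    rintro c A ⟨R, hR⟩
    refine ⟨‖c‖ * R, fun g hg => ?_⟩
    rw [mul_smul_comm, smul_mul_assoc, trace_smul, norm_smul]
    exact mul_le_mul_of_nonneg_left (hR g hg) (norm_nonneg _)

theorem subL_conj {V : Subgroup ((Matrix n n k)ˣ ⧸ Subgroup.center (Matrix n n k)ˣ)}
    {B A : Matrix n n k} (hA : A ∈ SubL V B) {u : (Matrix n n k)ˣ}
    (hu : (QuotientGroup.mk u : (Matrix n n k)ˣ ⧸ Subgroup.center (Matrix n n k)ˣ) ∈ V) :
    u.1 * A * (u⁻¹).1 ∈ SubL V B := by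
  obtain ⟨R, hR⟩ := hA
  refine ⟨R, fun g hg => ?_⟩
  have h1 := hR (u⁻¹ * g) (by
    rw [QuotientGroup.mk_mul, QuotientGroup.mk_inv]
    exact V.mul_mem (V.inv_mem hu) hg)
  have h2 : trace (u.1 * A * (u⁻¹).1 * g.1 * B * (g⁻¹).1) =
      trace (A * (u⁻¹ * g).1 * B * ((u⁻¹ * g)⁻¹).1) := by
    rw [_root_.mul_inv_rev, inv_inv, Units.val_mul, Units.val_mul]
    rw [show u.1 * A * (u⁻¹).1 * g.1 * B * (g⁻¹).1 =
      u.1 * (A * (u⁻¹).1 * g.1 * B * (g⁻¹).1) by simp only [mul_assoc], trace_mul_comm]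
    simp only [mul_assoc]
  rw [h2]
  exact h1

theorem subR_conj {V : Subgroup ((Matrix n n k)ˣ ⧸ Subgroup.center (Matrix n n k)ˣ)}
    {A B : Matrix n n k} (hB : B ∈ SubR V A) {u : (Matrix n n k)ˣ}
    (hu : (QuotientGroup.mk u : (Matrix n n k)ˣ ⧸ Subgroup.center (Matrix n n k)ˣ) ∈ V) :
    u.1 * B * (u⁻¹).1 ∈ SubR V A := by
  obtain ⟨R, hR⟩ := hB
  refine ⟨R, fun g hg => ?_⟩
  have h1 := hR (g * u) (by
    rw [QuotientGroup.mk_mul]
    exact V.mul_mem hg hu)
  have h2 : A * g.1 * (u.1 * B * (u⁻¹).1) * (g⁻¹).1 =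
      A * (g * u).1 * B * ((g * u)⁻¹).1 := by
    rw [_root_.mul_inv_rev, Units.val_mul, Units.val_mul]
    simp only [mul_assoc]
  rw [h2]
  exact h1

variable [CharZero k]

/-- **The main bound.** -/
theorem bdd_of_norm [Nonempty n]
    {N V : Subgroup ((Matrix n n k)ˣ ⧸ Subgroup.center (Matrix n n k)ˣ)}
    (hV : IsOpen (V : Set ((Matrix n n k)ˣ ⧸ Subgroup.center (Matrix n n k)ˣ)))
    (hVN : ∀ v ∈ V, ∀ x ∈ N, v * x * v⁻¹ ∈ N)
    (hc : ∀ g ∈ N, ∃ C : Set ((Matrix n n k)ˣ ⧸ Subgroup.center (Matrix n n k)ˣ),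
      IsCompact C ∧ ∀ j : ℕ, g ^ j ∈ C) (hne : ∃ x ∈ N, x ≠ 1) (A B : Matrix n n k) :
    BdV V A B := by
  obtain ⟨x, hxN, hx1⟩ := hne
  obtain ⟨X, rfl⟩ := QuotientGroup.mk_surjective x
  have hX : X.1 ∉ Set.range (scalar n : k → Matrix n n k) := by
    intro h
    apply hx1
    rw [QuotientGroup.eq_one_iff, Matrix.GeneralLinearGroup.mem_center_iff_val_mem_range_scalar]
    exact h
  have hX' : (X⁻¹).1 ∉ Set.range (scalar n : k → Matrix n n k) := by
    intro h
    apply hx1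
    rw [← inv_inv X, QuotientGroup.mk_inv, inv_eq_one, QuotientGroup.eq_one_iff,
      Matrix.GeneralLinearGroup.mem_center_iff_val_mem_range_scalar]
    exact h
  -- small transvections
  obtain ⟨s, hs0, hsV⟩ : ∃ s : k, s ≠ 0 ∧ ∀ i j : n, ∀ hij : i ≠ j,
      (QuotientGroup.mk (tv i j hij s) :
        (Matrix n n k)ˣ ⧸ Subgroup.center (Matrix n n k)ˣ) ∈ V := by
    obtain ⟨c, hc0, hc1⟩ := NormedField.exists_norm_lt_one k
    have hs : Tendsto (fun m : ℕ => c ^ m) atTop (𝓝 0) :=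
      tendsto_pow_atTop_nhds_zero_of_norm_lt_one hc1
    have h1 : ∀ᶠ m in atTop, ∀ i j : n, ∀ hij : i ≠ j,
        (QuotientGroup.mk (tv i j hij (c ^ m)) :
        (Matrix n n k)ˣ ⧸ Subgroup.center (Matrix n n k)ˣ) ∈ V := by
      rw [eventually_all]
      intro i
      rw [eventually_all]
      intro j
      by_cases hij : i = j
      · exact Eventually.of_forall fun m h => (h hij).elim
      · filter_upwards [ev_tv i j hij hs (hV.mem_nhds V.one_mem)] with m hm h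
        exact hm
    obtain ⟨m, hm⟩ := h1.exists
    exact ⟨c ^ m, pow_ne_zero _ (norm_pos_iff.1 hc0), hm⟩
  have hconj : ∀ S : Submodule k (Matrix n n k),
      (∀ A ∈ S, ∀ u : (Matrix n n k)ˣ, (QuotientGroup.mk u :
        (Matrix n n k)ˣ ⧸ Subgroup.center (Matrix n n k)ˣ) ∈ V → u.1 * A * (u⁻¹).1 ∈ S) →
      ∀ i j : n, i ≠ j → ∀ A ∈ S, ∀ r : k, (r = s ∨ r = -s) →
      (1 + r • single i j 1) * A * (1 + (-r) • single i j 1) ∈ S := by
    intro S hS i j hij A hA r hr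
    have h1 : (QuotientGroup.mk (tv i j hij r) :
        (Matrix n n k)ˣ ⧸ Subgroup.center (Matrix n n k)ˣ) ∈ V := by
      rcases hr with rfl | rfl
      · exact hsV i j hij
      · have h2 : tv i j hij (-s) = (tv i j hij s)⁻¹ := by
          ext1
          rw [tv_inv, tv_val]
        rw [h2, QuotientGroup.mk_inv]
        exact V.inv_mem (hsV i j hij)
    have h2 := hS A hA _ h1
    have h3 : ∀ r : k, single i j r = r • single i j (1 : k) := by
      intro r
      rw [smul_single, smul_eq_mul, mul_one]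
    rw [tv_val, tv_inv, h3 r, h3 (-r)] at h2
    exact h2
  -- first variable
  have hL : SubL V (X⁻¹).1 = ⊤ := by
    refine eq_top_of_conj _ hs0 (hconj _ fun A hA u hu => subL_conj hA hu) ?_ (x := X.1) ?_ hX
    · refine ⟨‖trace (X⁻¹).1‖, fun g _ => ?_⟩
      rw [one_mul, trace_mul_comm, ← mul_assoc, ← Units.val_mul, inv_mul_cancel, Units.val_one,
        one_mul]
    · refine ⟨1, fun g hg => ?_⟩
      set c : (Matrix n n k)ˣ := X * (g * X⁻¹ * g⁻¹) with hcd
      have h1 : X.1 * g.1 * (X⁻¹).1 * (g⁻¹).1 = c.1 := by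
        rw [hcd, Units.val_mul, Units.val_mul, Units.val_mul]
        simp only [mul_assoc]
      rw [h1]
      have h2 : (QuotientGroup.mk c :
          (Matrix n n k)ˣ ⧸ Subgroup.center (Matrix n n k)ˣ) ∈ N := by
        rw [hcd, QuotientGroup.mk_mul, QuotientGroup.mk_mul, QuotientGroup.mk_mul,
          QuotientGroup.mk_inv, QuotientGroup.mk_inv]
        exact N.mul_mem hxN (hVN _ hg _ (N.inv_mem hxN))
      obtain ⟨C, hC, hCj⟩ := hc _ h2
      have hdet : ‖c.1.det‖ = 1 := by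
        have h3 : ∀ u : (Matrix n n k)ˣ, u.1.det * (u⁻¹).1.det = 1 := by
          intro u
          rw [← det_mul, ← Units.val_mul, mul_inv_cancel, Units.val_one, det_one]
        have h4 : c.1.det = 1 := by
          rw [hcd, Units.val_mul, Units.val_mul, Units.val_mul, det_mul, det_mul, det_mul]
          linear_combination (g.1.det * (g⁻¹).1.det) * h3 X + h3 g
        rw [h4, norm_one]
      obtain ⟨M, hM, hcl⟩ := pow_cl hdet hC hCj
      exact trace_le hM hcl
  have hR : SubR V A = ⊤ := by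
    refine eq_top_of_conj _ hs0 (hconj _ fun A hA u hu => subR_conj hA hu) ?_ (x := (X⁻¹).1) ?_ hX'
    · refine ⟨‖trace A‖, fun g _ => ?_⟩
      rw [mul_one, mul_assoc, ← Units.val_mul, mul_inv_cancel, Units.val_one, mul_one]
    · have h1 : A ∈ SubL V (X⁻¹).1 := by rw [hL]; trivial
      exact h1
  have h1 : B ∈ SubR V A := by rw [hR]; trivial
  exact h1

end pgl

end Vale.Agent.P092.H45
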