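import Vale.Agent.P092.H473.Grp2

/-!
P092 (helper45), Team C: an injective continuous endomorphism of a group with a chain `GrpH`
(for example `PGL_m(k)`, `k` a non-archimedean local field of characteristic zero) is open.
-/

set_option autoImplicit false
set_option linter.all false

open Topology Filter

namespace Vale.Agent.P092.H45

open Vale.Agent.P092.H175.T1 Vale.Agent.P092.H473.Res

section abs

variable {C : Type} [Group C] [TopologicalSpace C] [IsTopologicalGroup C]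

/-- A closed subgroup which meets a basis of open normal subgroups in a subgroup of comparable
index contains one of them. -/
theorem le_of_index {N : ℕ → Subgroup C} (hn : ∀ s, (N s).Normal) (ha : Antitone N)
    (hb : ∀ V ∈ 𝓝 (1 : C), ∃ s, (N s : Set C) ⊆ V) {H : Subgroup C} (hH : IsClosed (H : Set C))
    (hi : ∀ s, (N s).index ≠ 0) (c : ℕ) (h : ∀ s, (N s).index ≤ c * (N s).relIndex H) :
    ∃ s, N s ≤ H := by
  have h1 : ∀ s, (N s).relIndex H * (H ⊔ N s).index = (N s).index := by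
    intro s
    haveI := hn s
    rw [← Subgroup.relIndex_sup_right H (N s)]
    exact Subgroup.relIndex_mul_index le_sup_right
  have h2 : ∀ s, (H ⊔ N s).index ≤ c := by
    intro s
    have h3 := h s
    rw [← h1 s, mul_comm] at h3
    refine Nat.le_of_mul_le_mul_right h3 (Nat.pos_of_ne_zero fun h4 => hi s ?_)
    rw [← h1 s, h4, zero_mul]
  have h0 : ∀ s, (H ⊔ N s).index ≠ 0 := fun s h4 => hi s (by rw [← h1 s, h4, mul_zero])
  obtain ⟨s₀, hs₀⟩ : ∃ s₀, ∀ s, (H ⊔ N s).index ≤ (H ⊔ N s₀).index := by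
    have h3 : (Set.range fun s => (H ⊔ N s).index).Nonempty := Set.range_nonempty _
    have h4 : BddAbove (Set.range fun s => (H ⊔ N s).index) := ⟨c, by
      rintro _ ⟨s, rfl⟩
      exact h2 s⟩
    obtain ⟨s₀, h5⟩ := Nat.sSup_mem h3 h4
    exact ⟨s₀, fun s => by
      change (fun s => (H ⊔ N s).index) s₀ = _ at h5
      change _ ≤ (fun s => (H ⊔ N s).index) s₀
      rw [h5]
      exact le_csSup h4 ⟨s, rfl⟩⟩
  have h3 : ∀ s, s₀ ≤ s → H ⊔ N s₀ ≤ H ⊔ N s := by
    intro s hs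
    have h4 : H ⊔ N s ≤ H ⊔ N s₀ := sup_le_sup_left (ha hs) H
    have h5 := Subgroup.relIndex_mul_index h4
    have h6 : (H ⊔ N s).index = (H ⊔ N s₀).index :=
      le_antisymm (hs₀ s) (Nat.le_of_dvd (Nat.pos_of_ne_zero (h0 s)) (Subgroup.index_dvd_of_le h4))
    rw [h6] at h5
    refine Subgroup.relIndex_eq_one.1 (Nat.eq_of_mul_eq_mul_right
      (Nat.pos_of_ne_zero (h0 s₀)) ?_)
    rw [h5, one_mul]
  refine ⟨s₀, fun x hx => ?_⟩
  by_contra hxH
  have h4 : {y : C | x * y⁻¹ ∈ (H : Set C)ᶜ} ∈ 𝓝 (1 : C) := by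
    refine IsOpen.mem_nhds ?_ ?_
    · exact hH.isOpen_compl.preimage (continuous_const.mul continuous_inv)
    · change x * 1⁻¹ ∈ (H : Set C)ᶜ
      rw [inv_one, mul_one]
      exact hxH
  obtain ⟨t, ht⟩ := hb _ h4
  haveI := hn (max s₀ t)
  have h5 : x ∈ H ⊔ N (max s₀ t) := h3 _ (le_max_left _ _) (le_sup_right (α := Subgroup C) hx)
  obtain ⟨y, hy, z, hz, rfl⟩ := Subgroup.mem_sup_of_normal_right.1 h5
  have h6 := ht (ha (le_max_right s₀ t) hz)
  change y * z * z⁻¹ ∈ (H : Set C)ᶜ at h6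
  rw [mul_inv_cancel_right] at h6
  exact h6 hy

end abs

section chain

variable {G : Type} [Group G] [TopologicalSpace G] {p q : ℕ} {K : ℕ → Subgroup G}

theorem relIndex_pow (hK : GrpH p q K) (a s : ℕ) : (K (a + s)).relIndex (K a) = q ^ s := by
  induction s with
  | zero => rw [add_zero, Subgroup.relIndex_self, pow_zero]
  | succ s ih =>
    have h1 : K (a + s + 1) ≤ K (a + s) := hK.chain.le _
    have h2 : K (a + s) ≤ K a := hK.chain.mono (Nat.le_add_right a s)
    rw [← add_assoc, ← Subgroup.relIndex_mul_relIndex _ _ _ h1 h2, hK.idx, ih, pow_succ, mul_comm]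

theorem q_pos (hK : GrpH p q K) : 0 < q := by
  rw [← hK.idx 0]
  exact Nat.pos_of_ne_zero (hK.chain.fin 0)

/-- if `z ∈ K_n` and `z ^ p ∈ K_{n+2}` then `z ∈ K_{n+1}` -/
theorem pow_mem_imp (hK : GrpH p q K) {n : ℕ} {z : G} (hz : z ∈ K n) (hp : z ^ p ∈ K (n + 2)) :
    z ∈ K (n + 1) := by
  classical
  have hc := hK.chain
  have hfin : ∀ m, Finite ((K m) ⧸ (K (m + 1)).subgroupOf (K m)) := by
    intro m
    haveI : ((K (m + 1)).subgroupOf (K m)).FiniteIndex := ⟨hc.fin m⟩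
    exact Subgroup.finite_quotient_of_finiteIndex
  have hwd : ∀ x y : K n, (QuotientGroup.leftRel ((K (n + 1)).subgroupOf (K n))) x y →
      (QuotientGroup.leftRel ((K (n + 2)).subgroupOf (K (n + 1))))
        (⟨(x : G) ^ p, hc.pow n x x.2⟩ : K (n + 1)) ⟨(y : G) ^ p, hc.pow n y y.2⟩ := by
    intro x y hxy
    rw [QuotientGroup.leftRel_apply, Subgroup.mem_subgroupOf] at hxy ⊢
    have hx0 : (x : G) ∈ K 0 := hc.mono (Nat.zero_le n) x.2
    have hr : (x : G)⁻¹ * (y : G) ∈ K (n + 1) := hxy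
    obtain ⟨w, hw, h1⟩ := mul_pow_mem hc (by omega : n + 2 ≤ (n + 1) + 2) hx0 hr p
    rw [mul_inv_cancel_left] at h1
    change ((x : G) ^ p)⁻¹ * (y : G) ^ p ∈ K (n + 2)
    rw [h1]
    have h2 : ((x : G) ^ p)⁻¹ * ((x : G) ^ p * ((x : G)⁻¹ * (y : G)) ^ p * w) =
        ((x : G)⁻¹ * (y : G)) ^ p * w := by group
    rw [h2]
    exact mul_mem (hc.pow _ _ hr) hw
  let F : (K n) ⧸ (K (n + 1)).subgroupOf (K n) →
      (K (n + 1)) ⧸ (K (n + 2)).subgroupOf (K (n + 1)) :=
    Quotient.map' (fun x : K n => (⟨(x : G) ^ p, hc.pow n x x.2⟩ : K (n + 1))) hwd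
  have hF : Function.Surjective F := by
    intro z
    obtain ⟨l, rfl⟩ := QuotientGroup.mk_surjective z
    obtain ⟨k, hk, r, hr, h1⟩ := hc.root n l l.2
    refine ⟨QuotientGroup.mk (⟨k, hk⟩ : K n), ?_⟩
    change (QuotientGroup.mk (⟨k ^ p, hc.pow n k hk⟩ : K (n + 1)) : (K (n + 1)) ⧸ _) = _
    rw [QuotientGroup.eq, Subgroup.mem_subgroupOf]
    change (k ^ p)⁻¹ * (l : G) ∈ K (n + 2)
    rw [h1, inv_mul_cancel_left]
    exact hr
  haveI := hfin n
  haveI := hfin (n + 1)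
  have hcard : Nat.card ((K n) ⧸ (K (n + 1)).subgroupOf (K n)) =
      Nat.card ((K (n + 1)) ⧸ (K (n + 2)).subgroupOf (K (n + 1))) := by
    have e1 := hK.idx n
    have e2 := hK.idx (n + 1)
    rw [Subgroup.relIndex, Subgroup.index] at e1 e2
    rw [e1, e2]
  have hinj : Function.Injective F :=
    ((Nat.bijective_iff_surjective_and_card F).2 ⟨hF, hcard⟩).1
  have h3 : F (QuotientGroup.mk (⟨z, hz⟩ : K n)) = F (QuotientGroup.mk (1 : K n)) := by
    change (QuotientGroup.mk (⟨z ^ p, hc.pow n z hz⟩ : K (n + 1)) : (K (n + 1)) ⧸ _) =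
      QuotientGroup.mk (⟨(1 : G) ^ p, _⟩ : K (n + 1))
    rw [eq_comm, QuotientGroup.eq, Subgroup.mem_subgroupOf]
    change ((1 : G) ^ p)⁻¹ * z ^ p ∈ K (n + 2)
    rw [one_pow, inv_one, one_mul]
    exact hp
  have h4 := hinj h3
  rw [eq_comm, QuotientGroup.eq, Subgroup.mem_subgroupOf] at h4
  change (1 : G)⁻¹ * z ∈ K (n + 1) at h4
  rwa [inv_one, one_mul] at h4

/-- `p`-th powers are injective on `K_0`. -/
theorem pow_inj (hK : GrpH p q K) {x y : G} (hx : x ∈ K 0) (hy : y ∈ K 0) (h : x ^ p = y ^ p) :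
    x = y := by
  have h1 : ∀ n, x⁻¹ * y ∈ K n := by
    intro n
    induction n with
    | zero => exact mul_mem (inv_mem hx) hy
    | succ n ih =>
      refine pow_mem_imp hK ih ?_
      obtain ⟨w, hw, h2⟩ := mul_pow_mem hK.chain (le_refl (n + 2)) hx ih p
      rw [mul_inv_cancel_left, ← h, mul_assoc, left_eq_mul] at h2
      rw [eq_inv_of_mul_eq_one_left h2]
      exact inv_mem hw
  exact (inv_mul_eq_one.1 (hK.inter _ h1))

variable [IsTopologicalGroup G] [T2Space G]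

/-- **Injective continuous endomorphisms are open.** -/
theorem isOpen_map (hK : GrpH p q K) (ψ : G →* G) (hψ : Continuous ψ)
    (hi : Function.Injective ψ) (a : ℕ) : IsOpen (((K a).map ψ : Subgroup G) : Set G) := by
  have hc := hK.chain
  -- reduction to large `a`
  obtain ⟨a₀, ha₀⟩ := hK.bas _ (hψ.continuousAt.preimage_mem_nhds
    (by rw [map_one]; exact (hK.opn 0).mem_nhds (one_mem _)))
  suffices h : ∀ b, a₀ ≤ b → ∃ s, K s ≤ (K b).map ψ by
    obtain ⟨s, hs⟩ := h (max a a₀) (le_max_right _ _)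
    exact Subgroup.isOpen_mono (hs.trans (Subgroup.map_mono (hc.mono (le_max_left _ _)))) (hK.opn s)
  intro b hb
  have hb0 : (K b).map ψ ≤ K 0 := by
    rintro _ ⟨x, hx, rfl⟩
    exact ha₀ (hc.mono hb hx)
  have hroot := exact_root hc (hK.cpt 0) hK.opn hK.inter
  -- step C
  obtain ⟨j₀, hj₀⟩ : ∃ j₀, (K b).map ψ ⊓ K j₀ ≤ (K (b + 1)).map ψ := by
    have h1 : IsCompact (ψ '' ((K b : Set G) \ (K (b + 1) : Set G))) :=
      ((hK.cpt b).diff (hK.opn (b + 1))).image hψ
    have h2 : (ψ '' ((K b : Set G) \ (K (b + 1) : Set G)))ᶜ ∈ 𝓝 (1 : G) := by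
      refine h1.isClosed.isOpen_compl.mem_nhds ?_
      rintro ⟨x, ⟨_, hx⟩, hx1⟩
      refine hx ?_
      have : x = 1 := hi (by rw [hx1, map_one])
      rw [this]
      exact one_mem _
    obtain ⟨j₀, hj₀⟩ := hK.bas _ h2
    refine ⟨j₀, ?_⟩
    rintro y ⟨⟨x, hx, rfl⟩, hy⟩
    by_contra hcon
    exact hj₀ hy ⟨x, ⟨hx, fun hx' => hcon ⟨x, hx', rfl⟩⟩, rfl⟩
  -- step D
  have hD : ∀ i, (K b).map ψ ⊓ K (j₀ + i) ≤ (K (b + 1 + i)).map ψ := by
    intro i
    induction i with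
    | zero => exact hj₀
    | succ i ih =>
      rintro x ⟨hx1, hx2⟩
      have h1 : x ∈ (K (b + 1)).map ψ :=
        hj₀ ⟨hx1, hc.mono (Nat.le_add_right j₀ (i + 1)) hx2⟩
      obtain ⟨k, hk, rfl⟩ := h1
      obtain ⟨l, hl, rfl⟩ := hroot b k hk
      obtain ⟨y, hy, hyx⟩ := hroot (j₀ + i) (ψ (l ^ p)) hx2
      rw [map_pow] at hyx
      have h2 : y = ψ l := pow_inj hK (hc.mono (Nat.zero_le _) hy)
        (hb0 ⟨l, hl, rfl⟩) hyx
      rw [h2] at hy
      obtain ⟨l', hl', h3⟩ := ih ⟨⟨l, hl, rfl⟩, hy⟩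
      rw [hi h3] at hl'
      exact ⟨l ^ p, hc.pow _ _ hl', rfl⟩
  have hne : ∀ s, (K s).relIndex ((K b).map ψ) ≠ 0 := fun s h =>
    hc.relIndex_ne (Nat.zero_le s) (Subgroup.relIndex_eq_zero_of_le_right hb0 h)
  -- step E
  haveI : CompactSpace (K 0) := isCompact_iff_compactSpace.1 (hK.cpt 0)
  have key : ∃ s, (K s).subgroupOf (K 0) ≤ ((K b).map ψ).subgroupOf (K 0) := by
    refine le_of_index (C := K 0) (N := fun s => (K s).subgroupOf (K 0))
      (H := ((K b).map ψ).subgroupOf (K 0)) (fun s => ?_) (fun s t hst => ?_) (fun V hV => ?_) ?_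
      (fun s => ?_) (q ^ j₀) (fun s => ?_)
    · refine ⟨fun x hx g => ?_⟩
      rw [Subgroup.mem_subgroupOf] at hx ⊢
      have h1 := hc.conj_mem (inv_mem g.2) hx
      rwa [inv_inv] at h1
    · exact fun x hx => hc.mono hst hx
    · rw [nhds_subtype_eq_comap, mem_comap] at hV
      obtain ⟨W, hW, hWV⟩ := hV
      obtain ⟨s, hs⟩ := hK.bas W hW
      exact ⟨s, fun x hx => hWV (hs hx)⟩
    · have h1 : IsClosed (((K b).map ψ : Subgroup G) : Set G) := by
        rw [Subgroup.coe_map]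
        exact ((hK.cpt b).image hψ).isClosed
      exact h1.preimage continuous_subtype_val
    · change (K s).relIndex (K 0) ≠ 0
      exact hc.relIndex_ne (Nat.zero_le s)
    · change (K s).relIndex (K 0) ≤ q ^ j₀ * _
      rw [Subgroup.relIndex_subgroupOf hb0]
      have h1 : (K s).relIndex (K 0) = q ^ s := by
        have := relIndex_pow hK 0 s
        rwa [zero_add] at this
      rw [h1]
      rcases le_or_gt j₀ s with hs | hs
      · obtain ⟨i, rfl⟩ := Nat.exists_eq_add_of_le hs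
        have h2 : (K (b + 1 + i)).relIndex (K b) = q ^ (1 + i) := by
          rw [add_assoc]
          exact relIndex_pow hK b (1 + i)
        have h3 : ((K (b + 1 + i)).map ψ).relIndex ((K b).map ψ) = q ^ (1 + i) := by
          rw [Subgroup.relIndex_map_map_of_injective _ _ hi, h2]
        have h4 : q ^ (1 + i) ∣ (K (j₀ + i)).relIndex ((K b).map ψ) := by
          rw [← h3, ← Subgroup.inf_relIndex_right (K (j₀ + i))]
          refine Subgroup.relIndex_dvd_of_le_left _ ?_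
          rw [inf_comm]
          exact hD i
        have h5 : (K (j₀ + i)).relIndex ((K b).map ψ) ≠ 0 := hne _
        have h6 := Nat.le_of_dvd (Nat.pos_of_ne_zero h5) h4
        calc q ^ (j₀ + i) = q ^ j₀ * q ^ i := pow_add _ _ _
          _ ≤ q ^ j₀ * q ^ (1 + i) := Nat.mul_le_mul_left _
              (Nat.pow_le_pow_right (q_pos hK) (Nat.le_add_left i 1))
          _ ≤ _ := Nat.mul_le_mul_left _ h6
      · have h5 : (K s).relIndex ((K b).map ψ) ≠ 0 := hne _
        calc q ^ s ≤ q ^ j₀ := Nat.pow_le_pow_right (q_pos hK) hs.le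
          _ = q ^ j₀ * 1 := (mul_one _).symm
          _ ≤ _ := Nat.mul_le_mul_left _ (Nat.pos_of_ne_zero h5)
  obtain ⟨s, hs⟩ := key
  refine ⟨s, fun x hx => ?_⟩
  have hx0 : x ∈ K 0 := hc.mono (Nat.zero_le s) hx
  exact hs (x := ⟨x, hx0⟩) hx

end chain

end Vale.Agent.P092.H45
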