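import Vale.Agent.P092.RC.Defs

/-!
P092, TEAM C (helper45): §8 of R/II, the trace bound of the family `Q` from the trace bound of the
positive element `a = Ê`, part 1 (boxes).
-/

set_option linter.all false

open scoped InnerProductSpace ENNReal
open Filter Topology ContinuousLinearMap MeasureTheory TopologicalSpace

namespace Vale.Agent.P092.H45

open Vale.Agent.P092.RC Vale.Agent.P092.H820

section trn

variable {G Γ K : Type} [Group G] [TopologicalSpace G] [Group Γ] [NormedAddCommGroup K]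
  [InnerProductSpace ℂ K] [CompleteSpace K]
  {π : G →* (K →L[ℂ] K)} {lam : Γ →* (K →L[ℂ] K)} {W : Set (K →L[ℂ] K)} {Ω : K}

theorem cm_mul {S T : K →L[ℂ] K} (hS : Cm W S) (hT : Cm W T) : Cm W (S * T) := by
  intro w hw
  rw [mul_assoc, hT w hw, ← mul_assoc, hS w hw, mul_assoc]

theorem cm_add {S T : K →L[ℂ] K} (hS : Cm W S) (hT : Cm W T) : Cm W (S + T) := by
  intro w hw
  rw [add_mul, mul_add, hT w hw, hS w hw]

theorem cm_smul {T : K →L[ℂ] K} (z : ℂ) (hT : Cm W T) : Cm W (z • T) := by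
  intro w hw
  rw [smul_mul_assoc, mul_smul_comm, hT w hw]

theorem cm_adj (hW : ∀ w ∈ W, adjoint w ∈ W) {T : K →L[ℂ] K} (hT : Cm W T) :
    Cm W (adjoint T) := by
  intro w hw
  have h1 := congrArg star (hT _ (hW w hw))
  have h2 : star (adjoint w) = w := by
    rw [ContinuousLinearMap.star_eq_adjoint, ContinuousLinearMap.adjoint_adjoint]
  rw [star_mul, star_mul, h2, ContinuousLinearMap.star_eq_adjoint] at h1
  exact h1.symm

theorem cm_mono {W' : Set (K →L[ℂ] K)} (h : W ⊆ W') {T : K →L[ℂ] K} (hT : Cm W' T) : Cm W T :=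
  fun w hw => hT w (h hw)

theorem cm_conj (hP : Pic π lam W Ω) {T : K →L[ℂ] K} (hT : Cm W T) (g : G) :
    Cm W (π g * T * π g⁻¹) := by
  intro w hw
  have h1 := hT _ (hP.WP w hw g⁻¹)
  rw [inv_inv] at h1
  have e1 : π g * π g⁻¹ = 1 := by rw [← map_mul, mul_inv_cancel, map_one]
  have e2 : π g⁻¹ * π g = 1 := by rw [← map_mul, inv_mul_cancel, map_one]
  calc π g * T * π g⁻¹ * w = π g * T * π g⁻¹ * w * (π g * π g⁻¹) := by rw [e1, mul_one]
    _ = π g * (T * (π g⁻¹ * w * π g)) * π g⁻¹ := by simp only [mul_assoc]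
    _ = π g * (π g⁻¹ * w * π g * T) * π g⁻¹ := by rw [h1]
    _ = (π g * π g⁻¹) * w * (π g * T * π g⁻¹) := by simp only [mul_assoc]
    _ = w * (π g * T * π g⁻¹) := by rw [e1, one_mul]

theorem trn_zero : TRN lam Ω (0 : K →L[ℂ] K) = 0 := by
  simp [TRN]

theorem trn_mul_left (A T : K →L[ℂ] K) : TRN lam Ω (A * T) ≤ ‖A‖ₑ ^ 2 * TRN lam Ω T := by
  unfold TRN
  rw [← ENNReal.tsum_mul_left]
  refine ENNReal.tsum_le_tsum fun γ => ?_
  rw [← mul_pow]
  exact pow_le_pow_left₀ zero_le (A.le_opNorm_enorm _) 2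

theorem trn_mul_left_lt (A : K →L[ℂ] K) {T : K →L[ℂ] K} (hT : TRN lam Ω T < ∞) :
    TRN lam Ω (A * T) < ∞ :=
  (trn_mul_left A T).trans_lt (ENNReal.mul_lt_top (by simp [ENNReal.pow_lt_top]) hT)

theorem trn_mul_right_lt (hP : Pic π lam W Ω) {T B : K →L[ℂ] K} (hT : Cm W T) (hB : Cm W B)
    (h : TRN lam Ω T < ∞) : TRN lam Ω (T * B) < ∞ := by
  rw [← hP.tr_adj _ (cm_mul hT hB)]
  have e : adjoint (T * B) = adjoint B * adjoint T := by
    have := star_mul T B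
    simpa only [ContinuousLinearMap.star_eq_adjoint] using this
  rw [e]
  refine trn_mul_left_lt _ ?_
  rwa [hP.tr_adj _ hT]

theorem trn_add_lt {S T : K →L[ℂ] K} (hS : TRN lam Ω S < ∞) (hT : TRN lam Ω T < ∞) :
    TRN lam Ω (S + T) < ∞ := by
  have key : TRN lam Ω (S + T) ≤ 4 * TRN lam Ω S + 4 * TRN lam Ω T := by
    unfold TRN
    rw [← ENNReal.tsum_mul_left, ← ENNReal.tsum_mul_left, ← ENNReal.tsum_add]
    refine ENNReal.tsum_le_tsum fun γ => ?_
    have h1 : ‖(S + T) (lam γ Ω)‖ₑ ≤ ‖S (lam γ Ω)‖ₑ + ‖T (lam γ Ω)‖ₑ := by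
      rw [ContinuousLinearMap.add_apply]
      exact enorm_add_le _ _
    refine (pow_le_pow_left₀ zero_le h1 2).trans ?_
    generalize ‖S (lam γ Ω)‖ₑ = s
    generalize ‖T (lam γ Ω)‖ₑ = t
    rcases le_total s t with hst | hst
    · calc (s + t) ^ 2 ≤ (t + t) ^ 2 := pow_le_pow_left₀ zero_le (by gcongr) 2
        _ = 4 * t ^ 2 := by ring
        _ ≤ 4 * s ^ 2 + 4 * t ^ 2 := le_add_self
    · calc (s + t) ^ 2 ≤ (s + s) ^ 2 := pow_le_pow_left₀ zero_le (by gcongr) 2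
        _ = 4 * s ^ 2 := by ring
        _ ≤ 4 * s ^ 2 + 4 * t ^ 2 := le_self_add
  refine key.trans_lt (ENNReal.add_lt_top.2 ⟨?_, ?_⟩)
  · exact ENNReal.mul_lt_top (by simp) hS
  · exact ENNReal.mul_lt_top (by simp) hT

theorem trn_sum_lt {ι : Type*} (s : Finset ι) (T : ι → (K →L[ℂ] K))
    (h : ∀ i ∈ s, TRN lam Ω (T i) < ∞) : TRN lam Ω (∑ i ∈ s, T i) < ∞ := by
  classical
  induction s using Finset.induction_on with
  | empty => simp [trn_zero]
  | insert i s hi ih =>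
    rw [Finset.sum_insert hi]
    exact trn_add_lt (h i (Finset.mem_insert_self _ _))
      (ih fun j hj => h j (Finset.mem_insert_of_mem hj))

end trn

section box

variable {G Γ Y G₀ K : Type} [Group G] [TopologicalSpace G] [Group Γ] [TopologicalSpace Y]
  [MulAction G Y] [ContinuousConstSMul G Y] [Group G₀] [TopologicalSpace G₀]
  [NormedAddCommGroup K] [InnerProductSpace ℂ K] [CompleteSpace K]
  {π : G →* (K →L[ℂ] K)} {lam : Γ →* (K →L[ℂ] K)} {W W' : Set (K →L[ℂ] K)} {Ω : K} {q : Γ →* G}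
  {c : G → Y → G₀} {y₀ : Y} {E : Clopens Y → (K →L[ℂ] K)} {U : Subgroup G₀}
  {a : G₀ → (K →L[ℂ] K)}

/-- **boxes, factorised form**: `X = a h * Y`, `X' = Y' * a h'`. -/
theorem tb_box (hP : Pic π lam W Ω) (hL : Lim π lam W q y₀ E) (hW : W ⊆ W')
    (hA : Hat π lam W' Ω q c y₀ E U a) {g : G} (hg : g • y₀ ≠ y₀) {C C' : Clopens Y}
    (hCC : Disjoint C C') {h h' : G₀} {X X' Z Z' : K →L[ℂ] K} (hZ : Cm W Z)
    (hZE : Z * E C = E C * Z) (hX : X = a h * Z) (hX' : X' = Z' * a h') :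
    TRN lam Ω (π g * (X' * E C') * π g⁻¹ * (X * E C)) < ∞ := by
  have e2 : π g⁻¹ * π g = 1 := by rw [← map_mul, inv_mul_cancel, map_one]
  have key : π g * (X' * E C') * π g⁻¹ * (X * E C) =
      (π g * Z' * π g⁻¹) * ((π g * (a h' * E C') * π g⁻¹ * (a h * E C)) * Z) := by
    rw [hX, hX']
    calc π g * (Z' * a h' * E C') * π g⁻¹ * (a h * Z * E C)
        = π g * Z' * 1 * (a h' * E C') * π g⁻¹ * (a h * (Z * E C)) := by
          simp only [mul_assoc, one_mul]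
      _ = π g * Z' * (π g⁻¹ * π g) * (a h' * E C') * π g⁻¹ * (a h * (E C * Z)) := by
          rw [e2, hZE]
      _ = _ := by simp only [mul_assoc]
  rw [key]
  have hah : ∀ h, Cm W (a h) := fun h => cm_mono hW (hA.res.cm h)
  refine trn_mul_left_lt _ (trn_mul_right_lt hP ?_ hZ (hA.tb g hg C C' hCC h h'))
  exact cm_mul (cm_conj hP (cm_mul (hah h') (hL.cm C')) g) (cm_mul (hah h) (hL.cm C))

/-- **boxes, eigenvalue form**: `a (h t) * x h = μ • x h`, `μ ≠ 0`, `x h` self-adjoint. -/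
theorem tb_eig (hP : Pic π lam W Ω) (hL : Lim π lam W q y₀ E) (hW : W ⊆ W')
    (hA : Hat π lam W' Ω q c y₀ E U a) {x : G₀ → (K →L[ℂ] K)} (hx : ∀ h, Cm W (x h))
    (hxE : ∀ h C, x h * E C = E C * x h) (hsa : ∀ h, star (x h) = x h) {t : G₀} {μ : ℂ}
    (hμ : μ ≠ 0) (hax : ∀ h, a (h * t) * x h = μ • x h) {g : G} (hg : g • y₀ ≠ y₀)
    {C C' : Clopens Y} (hCC : Disjoint C C') (h h' : G₀) :
    TRN lam Ω (π g * (x h' * E C') * π g⁻¹ * (x h * E C)) < ∞ := by
  have sa : ∀ h, star (a h) = a h := fun h =>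
    (IsSelfAdjoint.of_nonneg (hA.pos h)).star_eq
  have h2 : ∀ h, x h * a (h * t) = starRingEnd ℂ μ • x h := by
    intro h
    have h3 := congrArg star (hax h)
    rw [star_mul, sa, hsa, star_smul, hsa] at h3
    exact h3
  have hμ' : starRingEnd ℂ μ ≠ 0 := by
    intro h0
    exact hμ ((map_eq_zero _).1 h0)
  refine tb_box hP hL hW hA hg hCC (h := h * t) (h' := h' * t) (X := x h) (X' := x h')
    (Z := μ⁻¹ • x h) (Z' := (starRingEnd ℂ μ)⁻¹ • x h') (cm_smul _ (hx h)) ?_ ?_ ?_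
  · rw [smul_mul_assoc, mul_smul_comm, hxE]
  · rw [mul_smul_comm, hax, smul_smul, inv_mul_cancel₀ hμ, one_smul]
  · rw [smul_mul_assoc, h2, smul_smul, inv_mul_cancel₀ hμ', one_smul]

end box

end Vale.Agent.P092.H45
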